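import Crest.Agent.X262.Qn.Bas
import Crest.Agent.X262.Ult.Hyc

/-!
# Row 262, road B (helper59): numbers give a hypercommutative algebra

* `Num.Ax.hyc`, `hyc_itg`, `hyc_low`, `hyc_div`.
-/

set_option autoImplicit false
set_option linter.unusedSectionVars false

noncomputable section

namespace Crest.Agent.X262.Qn.Num.Ax

open Crest.Agent.X262.Ult Finset

variable {J H : Type} [Fintype J] [DecidableEq J] [CommRing H] [Algebra ℂ H] {N : Num J H}

theorem sum_antid {Q : Type} [AddCommMonoid Q] (d : J →₀ ℕ) (f : (J → ℕ) → (J → ℕ) → Q) :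
    ∑ e ∈ Finset.HasAntidiagonal.antidiagonal d, f e.1 e.2 = ∑ e ∈ Iic (d : J → ℕ), f e (d - e) := by
  refine sum_bij' (fun e _ => (e.1 : J → ℕ)) (fun e _ => (Finsupp.equivFunOnFinite.symm e,
    d - Finsupp.equivFunOnFinite.symm e)) (fun e he => ?_) (fun e he => ?_) (fun e he => ?_)
    (fun e _ => rfl) fun e he => ?_
  · rw [← mem_antidiagonal.1 he]
    exact mem_Iic.2 fun j => Nat.le_add_right _ _
  · exact mem_antidiagonal.2 (add_tsub_cancel_of_le fun j => mem_Iic.1 he j)
  · rw [← mem_antidiagonal.1 he]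
    simp
  · rw [← mem_antidiagonal.1 he]
    simp

variable (N) in
/-- the operation, zero for less than three insertions -/
def op' (d : J → ℕ) (l : Multiset H) : H := if 2 ≤ l.card then N.op d l else 0

theorem op'_two (d : J → ℕ) (a b : H) (l : Multiset H) :
    op' N d (a ::ₘ b ::ₘ l) = N.op d (a ::ₘ b ::ₘ l) := if_pos (by simp)

variable (hN : N.Ax)
include hN

theorem op'_lin (d : J → ℕ) (l : Multiset H) : IsLinearMap ℂ fun x => op' N d (x ::ₘ l) := by
  induction l using Multiset.induction_on with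
  | empty => exact ⟨fun _ _ => by simp [op'], fun _ _ => by simp [op']⟩
  | cons a l _ =>
    simp only [op'_two]
    exact (hN.L a d l).isLinear

/-- the hypercommutative algebra of the numbers -/
def hyc : Hyc ℂ J H where
  op d l := op' N d l
  add d x y l := (hN.op'_lin d l).map_add x y
  smul d c x l := (hN.op'_lin d l).map_smul c x
  cl a b := by
    rw [op'_two, mul_comm]
    exact hN.L_deg0 b a
  zero3 l hl := by
    rw [op', if_pos (by omega)]
    exact hN.pd _ fun x => (hN.op_spec _ (by omega) x).trans (hN.deg0' _ (by simp; omega))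
  wdvv d l a b c := by
    simp only [op'_two]
    rw [sum_antid d fun d₁ d₂ => ((Multiset.antidiagonal l).map fun s =>
        N.op d₂ (N.op d₁ (a ::ₘ b ::ₘ s.1) ::ₘ c ::ₘ s.2)).sum,
      sum_antid d fun d₁ d₂ => ((Multiset.antidiagonal l).map fun s =>
        N.op d₂ (N.op d₁ (a ::ₘ c ::ₘ s.1) ::ₘ b ::ₘ s.2)).sum]
    exact hN.comm c b d l a

theorem hyc_low (d : J →₀ ℕ) {l : Multiset H} (hl : l.card < 2) : hN.hyc.op d l = 0 :=
  if_neg hl.not_ge

theorem hyc_op (d : J →₀ ℕ) {l : Multiset H} (hl : 2 ≤ l.card) : hN.hyc.op d l = N.op d l :=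
  if_pos hl

theorem hyc_itg (d : J →₀ ℕ) {l : Multiset H} (hl : 2 ≤ l.card) (y : H) :
    N.itg (y * hN.hyc.op d l) = N.gw d (y ::ₘ l) := by
  rw [hN.hyc_op d hl, mul_comm, hN.op_spec d hl]

theorem hyc_div (j : J) : hN.hyc.IsDiv (N.h j) fun d => (d j : ℂ) := fun d l hl =>
  hN.ext fun y => by
    rw [smul_mul_assoc, map_smul, mul_comm, mul_comm _ y, hN.hyc_itg d hl,
      hN.hyc_itg d (by simp; omega), Multiset.cons_swap, hN.div d j _ (by simp; omega), smul_eq_mul]

end Crest.Agent.X262.Qn.Num.Ax
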