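import Crest.Agent.X262.Qn.Ev
import Crest.Agent.X262.Vb.Bas0
import Crest.Agent.X262.Hb.Bas

/-!
# Row 262, road B (helper59): the numbers of a target satisfy the axioms

* `mcls_prd`, `mcls_mul`, `mcls_res`, `mcls_at`, `mty_prd`, `GW_congr` : calculus of families;
* `Ev.gw_eq` : the numbers in terms of an arbitrary finite index type;
* `Ev.num_ax` : the axioms `Num.Ax`.
-/

set_option autoImplicit false
set_option linter.unusedSectionVars false

noncomputable section

namespace Crest.Agent.X262.Qn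

open Crest.Agent.X262.Vb Finset

/-! ### multisets -/

theorem exists_equiv {M M' H : Type} [Fintype M] [Fintype M'] {a : M → H} {a' : M' → H}
    (h : univ.val.map a = univ.val.map a') : ∃ σ : M ≃ M', ∀ q, a' (σ q) = a q := by
  classical
  have h1 : ∀ x, Fintype.card {q // a q = x} = Fintype.card {q // a' q = x} := fun x => by
    have h2 := congrArg (Multiset.count x) h
    rw [Multiset.count_map, Multiset.count_map] at h2
    rw [Fintype.card_subtype, Fintype.card_subtype]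
    simp only [eq_comm (a := x)] at h2
    exact h2
  exact ⟨Equiv.ofFiberEquiv fun x => Fintype.equivOfCardEq (h1 x),
    fun q => Equiv.ofFiberEquiv_map _ q⟩

theorem map_option {M H : Type} [Fintype M] (x : H) (a : M → H) :
    univ.val.map (fun q : Option M => q.elim x a) = x ::ₘ univ.val.map a := by
  rw [univ_option, insertNone]
  simp [Multiset.map_map]

theorem map_three {M H : Type} [Fintype M] (x y z : H) (a : M → H) :
    univ.val.map (Sum.elim ![x, y, z] a) = x ::ₘ y ::ₘ z ::ₘ univ.val.map a := by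
  rw [← univ_disjSum_univ, val_disjSum, Multiset.disjSum, Multiset.map_add, Multiset.map_map,
    Multiset.map_map]
  simp [Fin.univ_val_map, ← Multiset.cons_coe]

theorem map_subt {M H : Type} [Fintype M] [DecidableEq M] (p : M → Prop) [DecidablePred p]
    [i : Fintype {q // p q}] (a : M → H) :
    univ.val.map (fun q : {q // p q} => a q) = (univ.filter p).val.map a := by
  obtain rfl : i = Subtype.fintype p := Subsingleton.elim _ _
  rw [← subtype_univ p, ← subtype_map, map_val, Multiset.map_map]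
  rfl

theorem sum_anti {M H Q : Type} [DecidableEq M] [AddCommMonoid Q] (a : M → H) (S : Finset M)
    (Φ : Multiset H → Multiset H → Q) :
    ((S.val.map a).antidiagonal.map fun q => Φ q.1 q.2).sum =
      ∑ U ∈ S.powerset, Φ (U.val.map a) ((S \ U).val.map a) := by
  induction S using Finset.induction_on generalizing Φ with
  | empty => simp
  | insert x S hx ih =>
    rw [insert_val_of_notMem hx, Multiset.map_cons, Multiset.antidiagonal_cons, Multiset.map_add,
      Multiset.sum_add, Multiset.map_map, Multiset.map_map, sum_powerset_insert hx]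
    refine congrArg₂ _ ((ih fun s t => Φ s (a x ::ₘ t)).trans (sum_congr rfl fun U hU => ?_))
      ((ih fun s t => Φ (a x ::ₘ s) t).trans (sum_congr rfl fun U hU => ?_))
    · have h1 : x ∉ U := fun h => hx (mem_powerset.1 hU h)
      rw [insert_sdiff_of_notMem _ h1, insert_val_of_notMem (fun h => hx (mem_sdiff.1 h).1),
        Multiset.map_cons]
    · have h1 : x ∉ U := fun h => hx (mem_powerset.1 hU h)
      rw [insert_sdiff_insert, sdiff_insert_of_notMem hx, insert_val_of_notMem h1,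
        Multiset.map_cons]

/-! ### families -/

section Fam

variable {B : Hb.Th} {J : Type} [Fintype J] [DecidableEq J] {io : J → Type} [∀ j, Fintype (io j)]
  [∀ j, DecidableEq (io j)] {A : Type} [Fintype A] {T : Tgt io A} {M M' : Type} {d : J → ℕ}

theorem mcls_at {α : Fam B io} (h : Cls B T α) (q : M) :
    MCls B T (M := M) fun E _ _ y => α E (y q) :=
  ⟨fun E _ _ _ y c h1 h2 h3 => h.scl E (y q) (c q) (h1 q) (h2 q) (h3 q),
    fun K E _ _ _ _ _ _ p y h1 h2 => h.nat K E p (y q) (h1 q) (h2 q)⟩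

theorem mcls_res {Φ : MFam B io M} (h : MCls B T Φ) (g : M → M') :
    MCls B T (M := M') fun E _ _ y => Φ E fun q => y (g q) :=
  ⟨fun E _ _ _ y c h1 h2 h3 => h.scl E (fun q => y (g q)) (fun q => c (g q)) (fun _ => h1 _)
      (fun _ => h2 _) fun _ => h3 _,
    fun K E _ _ _ _ _ _ p y h1 h2 => h.nat K E p (fun q => y (g q)) (fun _ => h1 _) fun _ => h2 _⟩

theorem mcls_mul {Φ Ψ : MFam B io M} (h : MCls B T Φ) (h' : MCls B T Ψ) :
    MCls B T (M := M) fun E _ _ y => Φ E y * Ψ E y :=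
  ⟨fun E _ _ _ y c h1 h2 h3 => by rw [h.scl E y c h1 h2 h3, h'.scl E y c h1 h2 h3],
    fun K E _ _ _ _ _ _ p y h1 h2 => by rw [map_mul, h.nat K E p y h1 h2, h'.nat K E p y h1 h2]⟩

theorem mcls_prd [Fintype M] {α : M → Fam B io} (h : ∀ q, Cls B T (α q)) : MCls B T (prd α) :=
  ⟨fun E _ _ _ y c h1 h2 h3 => prod_congr rfl fun q _ =>
      (h q).scl E (y q) (c q) (h1 q) (h2 q) (h3 q),
    fun K E _ _ _ _ _ _ p y h1 h2 => (map_prod _ _ _).trans (prod_congr rfl fun q _ =>
      (h q).nat K E p (y q) (h1 q) (h2 q))⟩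

theorem cls_hc (hB : B.Ax) (j : J) : Cls B T (hc B j) :=
  ⟨fun E _ _ _ y c h1 h2 _ => by
      change B.c1 (ln (Node22.scl c y) j) = B.c1 (ln y j)
      rw [ln_scl h2 h1, map_add, hB.c1_pr, add_zero],
    fun K E _ _ _ _ _ _ p y h1 _ => by
      change B.pb p (B.c1 (ln y j)) = B.c1 (ln _ j)
      rw [ln_red h1, hB.pb_c1_res p (h1.val_ln j)]⟩

theorem ty_prod (hB : B.Ax) {E : Type} [Field E] [Algebra ℂ E] {x : M → B.H E} {p q : M → ℕ}
    (S : Finset M) (h : ∀ i ∈ S, x i ∈ B.ty E (p i) (q i)) :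
    ∏ i ∈ S, x i ∈ B.ty E (∑ i ∈ S, p i) (∑ i ∈ S, q i) := by
  induction S using Finset.cons_induction with
  | empty => simpa using hB.ty_one
  | cons i S hi ih =>
    rw [prod_cons, sum_cons, sum_cons]
    exact hB.ty_mul (h i (mem_cons_self _ _)) (ih fun j hj => h j (mem_cons_of_mem hj))

theorem tree_nz {E : Type} [Field E] [Algebra ℂ E] {y : M → Pnt io E} (h : TreePts T d y)
    (q : M) : NZ (y q) := fun j => by
  obtain ⟨L, _, _, _, α, t, x, c, h1, -, -, h4, h5⟩ := h
  obtain ⟨i, hi⟩ := nz_ev t h1 (x q) j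
  exact ⟨i, fun h0 => mul_ne_zero (h4 q j) hi (by rw [← h5, h0, map_zero])⟩

theorem tree_on {E : Type} [Field E] [Algebra ℂ E] {y : M → Pnt io E} (h : TreePts T d y)
    (q : M) : T.On (y q) := fun a => by
  obtain ⟨L, _, _, _, α, t, x, c, -, -, h3, -, h5⟩ := h
  refine (on_map T α).1 ?_ a
  rw [show mapP α (y q) = Node22.scl (c q) (t.ev (x q)) from funext fun j => funext (h5 q j)]
  exact Node22.on_scl T (h3 (x q)) (c q)

/-- only the values at points of the target matter -/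
theorem GW_congr (h : Ax0 B T d) [Fintype M] {Φ Ψ : MFam B io M} (h1 : MCls B T Φ)
    (h2 : MCls B T Ψ) (h3 : ∀ (E : Type) [Field E] [Algebra ℂ E] [Algebra.EssFiniteType ℂ E]
      (y : M → Pnt io E), (∀ q, NZ (y q)) → (∀ q, T.On (y q)) → Φ E y = Ψ E y) :
    GW B T d Φ = GW B T d Ψ :=
  h.supp Φ Ψ h1 h2 fun E _ _ _ y hy => h3 E y (tree_nz hy) (tree_on hy)

theorem prd_option [Fintype M] (α : Option M → Fam B io) :
    prd α = (fun E _ _ y => α none E (y none) * prd (fun q => α (some q)) E fun q => y (some q) :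
      MFam B io (Option M)) := by
  funext E _ _ y
  exact Fintype.prod_option _

end Fam

namespace Ev

variable {B : Hb.Th} {J : Type} [Fintype J] [DecidableEq J] {io : J → Type} [∀ j, Fintype (io j)]
  [∀ j, DecidableEq (io j)] {A : Type} [Fintype A] {H : Type} [CommRing H] [Algebra ℂ H]
  {e : Ev B io H} {T : Tgt io A} {c : ℕ} {d : J → ℕ} {M : Type} [Fintype M]

theorem GW_eq (h : Ax0 B T d) {M' : Type} [Fintype M'] {a : M → H} {a' : M' → H}
    (ha : univ.val.map a = univ.val.map a') :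
    GW B T d (prd fun q => e.fam (a q)) = GW B T d (prd fun q => e.fam (a' q)) := by
  obtain ⟨σ, hσ⟩ := exists_equiv ha
  rw [← h.perm σ]
  congr 1
  funext E _ _ y
  exact Fintype.prod_equiv σ _ _ fun q => by simp only [hσ]

/-- **the numbers for an arbitrary index type** -/
theorem gw_eq (h : Ax0 B T d) (a : M → H) :
    (e.num T).gw d (univ.val.map a) = GW B T d (prd fun q => e.fam (a q)) := by
  classical
  exact GW_eq h (Multiset.map_univ_coe _)

theorem gw_cons (h : Ax0 B T d) (x : H) (a : M → H) :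
    (e.num T).gw d (x ::ₘ univ.val.map a) = GW B T d (M := Option M) fun E _ _ y =>
      e.ev E (y none) x * prd (fun q => e.fam (a q)) E fun q => y (some q) := by
  rw [← map_option, gw_eq h, prd_option]
  rfl

theorem gw_three (h : Ax0 B T d) (x y z : H) (a : M → H) :
    (e.num T).gw d (x ::ₘ y ::ₘ z ::ₘ univ.val.map a) =
      gw3 B T d ![e.fam x, e.fam y, e.fam z] fun q => e.fam (a q) := by
  rw [← map_three, gw_eq h, gw3]
  congr 2
  funext q
  rcases q with q | q
  · fin_cases q <;> rfl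
  · rfl

theorem exists_idx (s : Multiset H) :
    ∃ (M : Type) (_ : Fintype M) (_ : DecidableEq M) (a : M → H),
      univ.val.map a = s ∧ Fintype.card M = s.card := by
  classical
  exact ⟨s.ToType, inferInstance, inferInstance, fun q => q, Multiset.map_univ_coe _,
    Multiset.card_coe _⟩

variable (he : e.Ax T c)
include he

theorem mcls (a : M → H) : MCls B T (prd fun q => e.fam (a q)) := mcls_prd fun _ => he.cls _

theorem mcls_cons (x : H) (a : M → H) : MCls B T (M := Option M) fun E _ _ y =>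
    e.ev E (y none) x * prd (fun q => e.fam (a q)) E fun q => y (some q) :=
  mcls_mul (mcls_at (he.cls x) none) (mcls_res (mcls he a) some)

theorem gw_lin (h : Ax0 B T d) (s : Multiset H) :
    IsLinearMap ℂ fun x => (e.num T).gw d (x ::ₘ s) := by
  obtain ⟨M, _, _, a, rfl, -⟩ := exists_idx s
  refine ⟨fun x y => ?_, fun r x => ?_⟩
  · rw [gw_cons h, gw_cons h, gw_cons h, ← h.add _ _ (mcls_cons he x a) (mcls_cons he y a)]
    congr 1
    funext E _ _ z
    exact (congrArg (· * _) (map_add _ x y)).trans (add_mul _ _ _)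
  · rw [gw_cons h, gw_cons h, smul_eq_mul, ← h.smul _ _ (mcls_cons he x a)]
    congr 1
    funext E _ _ z
    exact (congrArg (· * _) (map_smul _ r x)).trans (smul_mul_assoc _ _ _)

theorem gw_pure (hB : B.Ax) (h : Ax0 B T d) (t : Multiset (H × ℕ × ℕ))
    (ht : ∀ x ∈ t, x.1 ∈ e.typ x.2.1 x.2.2)
    (hw : (t.map fun x => (x.2.1 : ℤ) - x.2.2).sum ≠ 0) : (e.num T).gw d (t.map Prod.fst) = 0 := by
  classical
  rw [← Multiset.map_univ_coe t, Multiset.map_map] at hw ⊢
  rw [gw_eq h]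
  refine h.typ _ (∑ x : t.ToType, (x : H × ℕ × ℕ).2.1) (∑ x : t.ToType, (x : H × ℕ × ℕ).2.2)
    (mcls he _) (fun E _ _ _ y h1 h2 => ty_prod hB _ fun x _ =>
      he.ty (ht _ Multiset.coe_mem) E _ (h1 x) (h2 x)) fun h0 => hw ?_
  change ∑ x : t.ToType, (((x : H × ℕ × ℕ).2.1 : ℤ) - (x : H × ℕ × ℕ).2.2) = 0
  rw [sum_sub_distrib, ← Nat.cast_sum, ← Nat.cast_sum, h0, sub_self]

theorem gw_wt (hB : B.Ax) (h : Ax0 B T d) (l : Multiset (H × ℤ)) (hl : ∀ x ∈ l, x.1 ∈ e.wt x.2)
    (t : Multiset (H × ℕ × ℕ)) (ht : ∀ x ∈ t, x.1 ∈ e.typ x.2.1 x.2.2)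
    (hw : (l.map Prod.snd).sum + (t.map fun x => (x.2.1 : ℤ) - x.2.2).sum ≠ 0) :
    (e.num T).gw d (l.map Prod.fst + t.map Prod.fst) = 0 := by
  induction l using Multiset.induction_on generalizing t with
  | empty => simpa using gw_pure he hB h t ht (by simpa using hw)
  | cons x l ih =>
    rw [Multiset.map_cons, Multiset.cons_add]
    have h1 : e.wt x.2 ≤ LinearMap.ker (IsLinearMap.mk' _
        (gw_lin he h (l.map Prod.fst + t.map Prod.fst))) := by
      refine iSup_le fun p => iSup_le fun q => iSup_le fun hpq y hy => ?_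
      have h2 := ih (fun z hz => hl z (Multiset.mem_cons_of_mem hz)) ((y, p, q) ::ₘ t)
        (Multiset.forall_mem_cons.2 ⟨hy, ht⟩) (by
          rw [Multiset.map_cons, Multiset.sum_cons] at hw ⊢
          rw [hpq]
          exact fun h0 => hw (by linear_combination h0))
      rwa [Multiset.map_cons, Multiset.add_cons] at h2
    exact h1 (hl x (Multiset.mem_cons_self _ _))

theorem mem_wt {p q : ℕ} {a : H} (ha : a ∈ e.typ p q) : a ∈ e.wt ((p : ℤ) - q) :=
  Submodule.mem_iSup_of_mem p (Submodule.mem_iSup_of_mem q (Submodule.mem_iSup_of_mem rfl ha))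

theorem wt_mul {w w' : ℤ} {a b : H} (ha : a ∈ e.wt w) (hb : b ∈ e.wt w') :
    a * b ∈ e.wt (w + w') := by
  have h1 : e.wt w * e.wt w' ≤ e.wt (w + w') := by
    simp only [wt, Submodule.iSup_mul, Submodule.mul_iSup]
    refine iSup_le fun p' => iSup_le fun q' => iSup_le fun h' => iSup_le fun p => iSup_le fun q =>
      iSup_le fun h => Submodule.mul_le.2 fun x hx y hy => ?_
    have h2 := mem_wt he (he.typ_mul hx hy)
    rwa [show ((p + p' : ℕ) : ℤ) - (q + q' : ℕ) = w + w' by omega] at h2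
  exact h1 (Submodule.mul_mem_mul ha hb)

theorem wt_itg {w : ℤ} {a : H} (ha : a ∈ e.wt w) (hw : w ≠ 0) : e.itg a = 0 := by
  have h1 : e.wt w ≤ LinearMap.ker e.itg :=
    iSup_le fun p => iSup_le fun q => iSup_le fun h x hx => he.typ_itg hx (by omega)
  exact h1 ha

section Dual

variable {ι : Type} [Fintype ι] {u u' : ι → H}
  (hu : ∀ a b, e.itg (a * b) = ∑ l, e.itg (a * u l) * e.itg (b * u' l))
include hu

theorem expand (a : H) : a = ∑ l, e.itg (a * u l) • u' l := by
  rw [← sub_eq_zero]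
  refine he.pd _ fun b => ?_
  simp only [sub_mul, sum_mul, map_sub, map_sum, smul_mul_assoc, map_smul, smul_eq_mul, hu a b,
    mul_comm (u' _) b, sub_self]

theorem expand' (b : H) : b = ∑ l, e.itg (b * u' l) • u l := by
  refine expand he (fun a b => ?_) b
  rw [mul_comm, hu]
  exact sum_congr rfl fun l _ => mul_comm _ _

theorem op_eq (h : Ax0 B T d) (s : Multiset H) :
    (e.num T).op d s = ∑ l, (e.num T).gw d (u l ::ₘ s) • u' l := by
  have h1 : ∃ y, ∀ x, (e.num T).itg (y * x) = (e.num T).gw d (x ::ₘ s) :=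
    ⟨∑ l, (e.num T).gw d (u l ::ₘ s) • u' l, fun x => by
      have h2 := congrArg (IsLinearMap.mk' _ (gw_lin he h s)) (expand' he hu x)
      simp only [map_sum, map_smul, IsLinearMap.mk'_apply, smul_eq_mul] at h2
      rw [h2, sum_mul, map_sum]
      exact sum_congr rfl fun l _ => by
        rw [smul_mul_assoc, map_smul, smul_eq_mul, mul_comm, mul_comm (u' l)]; rfl⟩
  rw [Num.op, dif_pos h1]
  exact (expand he hu _).trans (sum_congr rfl fun l _ => congrArg (· • u' l) (h1.choose_spec _))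

theorem W_eq [DecidableEq M] (h : ∀ d, Ax0 B T d) (α : M → H) (x₁ x₂ x₃ x₄ : H) :
    (e.num T).W d (univ.val.map α) x₁ x₂ x₃ x₄ =
      wd B T d (fun l => e.fam (u l)) (fun l => e.fam (u' l)) (e.fam x₁) (e.fam x₂) (e.fam x₃)
        (e.fam x₄) fun q => e.fam (α q) := by
  refine sum_congr rfl fun d₁ _ => ?_
  rw [sum_anti α univ fun s₁ s₂ => (e.num T).gw (d - d₁)
    ((e.num T).op d₁ (x₁ ::ₘ x₂ ::ₘ s₁) ::ₘ x₃ ::ₘ x₄ ::ₘ s₂), powerset_univ]
  refine sum_congr rfl fun S _ => ?_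
  have h1 := congrArg (IsLinearMap.mk' _ (gw_lin he (h (d - d₁))
    (x₃ ::ₘ x₄ ::ₘ (univ \ S).val.map α))) (op_eq he hu (h d₁) (x₁ ::ₘ x₂ ::ₘ S.val.map α))
  simp only [map_sum, map_smul, IsLinearMap.mk'_apply, smul_eq_mul] at h1
  rw [h1]
  refine sum_congr rfl fun l _ => ?_
  rw [← gw_three (h _), ← gw_three (h _), map_subt (· ∈ S), map_subt (· ∉ S), filter_mem_eq_inter,
    univ_inter, filter_notMem_eq_sdiff, Multiset.cons_swap (u l), Multiset.cons_swap (u l)]

end Dual

theorem fd : FiniteDimensional ℂ H := by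
  obtain ⟨ι, _, u, u', hu, -⟩ := he.diag
  refine Module.Finite.of_surjective (Fintype.linearCombination ℂ u') fun a =>
    ⟨_, (Fintype.linearCombination_apply ℂ u' _).trans (expand he hu a).symm⟩

theorem gw_typ (hB : B.Ax) (h : Ax0 B T d) {s : Multiset H} {w w' : ℤ} {x y : H}
    (hs : ∀ a ∈ s, a ∈ e.wt 0) (hx : x ∈ e.wt w) (hy : y ∈ e.wt w') (hw : w + w' ≠ 0) :
    (e.num T).gw d (x ::ₘ y ::ₘ s) = 0 := by
  have h1 := gw_wt he hB h ((x, w) ::ₘ (y, w') ::ₘ s.map fun a => (a, 0))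
    (Multiset.forall_mem_cons.2 ⟨hx, Multiset.forall_mem_cons.2 ⟨hy,
      Multiset.forall_mem_map_iff.2 hs⟩⟩) 0 (by simp) (by simpa using hw)
  simpa using h1

theorem gw_deg0 (h : Ax0 B T 0) (hD : Deg0 B T c) (x y z : H) :
    (e.num T).gw 0 {x, y, z} = e.itg (x * y * z) := by
  obtain ⟨K, _, _, _, y₀, hy, hK⟩ := he.gen
  have h1 : ({x, y, z} : Multiset H) = univ.val.map ![x, y, z] := by
    simp [Fin.univ_val_map, ← Multiset.cons_coe]
  rw [h1, gw_eq h, hD y₀ hy _ (mcls he _), if_pos (Fintype.card_fin 3), ← hK,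
    map_mul (e.ev K y₀), map_mul (e.ev K y₀)]
  exact congrArg _ (Fin.prod_univ_three _)

theorem gw_deg0' (h : Ax0 B T 0) (hD : Deg0 B T c) {s : Multiset H} (hs : s.card ≠ 3) :
    (e.num T).gw 0 s = 0 := by
  obtain ⟨K, _, _, _, y₀, hy, -⟩ := he.gen
  obtain ⟨M, _, _, a, rfl, h1⟩ := exists_idx s
  rw [gw_eq h, hD y₀ hy _ (mcls he _), if_neg (h1 ▸ hs)]

theorem gw_div (hB : B.Ax) (h : Ax0 B T d) (hS : AxS B T d) (j : J) {s : Multiset H}
    (hs : 3 ≤ s.card) : (e.num T).gw d (e.h j ::ₘ s) = d j * (e.num T).gw d s := by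
  obtain ⟨M, _, _, a, rfl, h1⟩ := exists_idx s
  rw [gw_eq h, ← hS.dvz _ j (mcls he a) (h1 ▸ hs), gw_cons h]
  exact GW_congr h (mcls_cons he _ a)
    (mcls_mul (mcls_at (cls_hc hB j) none) (mcls_res (mcls he a) some))
    fun E _ _ _ y h1 h2 => by rw [he.hc j E _ (h1 _) (h2 _)]

theorem gw_str (h : Ax0 B T d) (hS : AxS B T d) {s : Multiset H} (hs : d ≠ 0 ∨ 3 ≤ s.card) :
    (e.num T).gw d (1 ::ₘ s) = 0 := by
  obtain ⟨M, _, _, a, rfl, h1⟩ := exists_idx s
  rw [gw_cons h, ← hS.str _ (mcls he a) (h1 ▸ hs)]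
  simp only [map_one, one_mul]

theorem gw_wdvv (h : ∀ d, Ax0 B T d) (hW : Wdvv B T) (s : Multiset H) (x₁ x₂ x₃ x₄ : H) :
    (e.num T).W d s x₁ x₂ x₃ x₄ = (e.num T).W d s x₁ x₃ x₂ x₄ := by
  obtain ⟨ι, _, u, u', hu, hΔ⟩ := he.diag
  obtain ⟨M, _, _, α, rfl, -⟩ := exists_idx s
  rw [W_eq he hu h, W_eq he hu h]
  exact hW _ _ (fun _ => he.cls _) (fun _ => he.cls _) hΔ d _ _ _ _ (he.cls _) (he.cls _)
    (he.cls _) (he.cls _) _ fun _ => he.cls _

/-- **the axioms** -/
theorem num_ax (hB : B.Ax) (h0 : ∀ d, Ax0 B T d) (hS : ∀ d, AxS B T d) (hD : Deg0 B T c)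
    (hW : Wdvv B T) : (e.num T).Ax where
  fd := fd he
  pd := he.pd
  wt_top := by
    rw [eq_top_iff, ← he.typ_top]
    exact iSup_le fun p => iSup_le fun q a ha => Submodule.mem_iSup_of_mem _ (mem_wt he ha)
  wt_one := by
    have h := mem_wt he he.typ_one
    rwa [sub_self] at h
  wt_h j := by
    have h := mem_wt he (he.typ_h j)
    rwa [sub_self] at h
  wt_mul ha hb := wt_mul he ha hb
  wt_itg ha hw := wt_itg he ha hw
  lin d s _ := gw_lin he (h0 d) s
  typ d _ _ _ _ _ hs _ hx hy hw := gw_typ he hB (h0 d) hs hx hy hw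
  deg0 := gw_deg0 he (h0 0) hD
  deg0' _ hs := gw_deg0' he (h0 0) hD hs.ne'
  div d j _ hs := gw_div he hB (h0 d) (hS d) j hs
  wdvv _ s := gw_wdvv he h0 hW s

end Ev

end Crest.Agent.X262.Qn
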