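import Crest.Agent.X262.Qn.Defs

/-!
# Row 262, road B (helper55): calculus of splittings, the operators `L a d s`
-/

set_option autoImplicit false
set_option linter.unusedSectionVars false

noncomputable section

namespace Crest.Agent.X262.Qn

variable {J H : Type} [Fintype J] [DecidableEq J] [CommRing H] [Algebra ℂ H]

section SmSec

variable {Q Q' : Type} [AddCommMonoid Q] [AddCommMonoid Q'] {d : J → ℕ} {s : Multiset H}
  {Φ Ψ : (J → ℕ) → Multiset H → (J → ℕ) → Multiset H → Q}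

theorem Sm_congr (h : ∀ d₁ s₁ d₂ s₂, d₁ + d₂ = d → s₁ + s₂ = s → Φ d₁ s₁ d₂ s₂ = Ψ d₁ s₁ d₂ s₂) :
    Sm d s Φ = Sm d s Ψ := by
  unfold Sm
  refine Finset.sum_congr rfl fun e he => congrArg _ (Multiset.map_congr rfl fun q hq => ?_)
  exact h _ _ _ _ (add_tsub_cancel_of_le (Finset.mem_Iic.1 he)) (Multiset.mem_antidiagonal.1 hq)

theorem Sm_add : Sm d s (fun a b c e => Φ a b c e + Ψ a b c e) = Sm d s Φ + Sm d s Ψ := by
  unfold Sm
  rw [← Finset.sum_add_distrib]
  exact Finset.sum_congr rfl fun e _ => Multiset.sum_map_add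

theorem Sm_map {F : Type} [FunLike F Q Q'] [AddMonoidHomClass F Q Q'] (f : F) :
    f (Sm d s Φ) = Sm d s fun a b c e => f (Φ a b c e) := by
  unfold Sm
  rw [map_sum]
  refine Finset.sum_congr rfl fun e _ => ?_
  rw [map_multiset_sum, Multiset.map_map]
  rfl

theorem Sm_mem {S : Type} [SetLike S Q] [AddSubmonoidClass S Q] (W : S)
    (h : ∀ d₁ s₁ d₂ s₂, d₁ + d₂ = d → s₁ + s₂ = s → Φ d₁ s₁ d₂ s₂ ∈ W) : Sm d s Φ ∈ W := by
  unfold Sm
  refine sum_mem fun e he => multiset_sum_mem _ fun x hx => ?_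
  obtain ⟨q, hq, rfl⟩ := Multiset.mem_map.1 hx
  exact h _ _ _ _ (add_tsub_cancel_of_le (Finset.mem_Iic.1 he)) (Multiset.mem_antidiagonal.1 hq)

theorem Sm_zero (h : ∀ d₁ s₁ d₂ s₂, d₁ + d₂ = d → s₁ + s₂ = s → Φ d₁ s₁ d₂ s₂ = 0) :
    Sm d s Φ = 0 :=
  (AddSubmonoid.mem_bot).1 (Sm_mem (⊥ : AddSubmonoid Q) fun a b c e h1 h2 =>
    (AddSubmonoid.mem_bot).2 (h a b c e h1 h2))

theorem anti_swap (s : Multiset H) (f : Multiset H → Multiset H → Q) :
    (s.antidiagonal.map fun q => f q.1 q.2).sum = (s.antidiagonal.map fun q => f q.2 q.1).sum := by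
  induction s using Multiset.induction_on generalizing f with
  | empty => simp
  | cons a s ih =>
    simp only [Multiset.antidiagonal_cons, Multiset.map_add, Multiset.sum_add, Multiset.map_map,
      Function.comp_def, Prod.map_fst, Prod.map_snd, id]
    rw [ih fun x y => f x (a ::ₘ y), ih fun x y => f (a ::ₘ x) y, add_comm]

theorem anti_left (s : Multiset H) (f : Multiset H → Multiset H → Q)
    (h : ∀ x y, x + y = s → x ≠ 0 → f x y = 0) :
    (s.antidiagonal.map fun q => f q.1 q.2).sum = f 0 s := by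
  induction s using Multiset.induction_on generalizing f with
  | empty => simp
  | cons a s ih =>
    simp only [Multiset.antidiagonal_cons, Multiset.map_add, Multiset.sum_add, Multiset.map_map,
      Function.comp_def, Prod.map_fst, Prod.map_snd, id]
    rw [ih (fun x y => f x (a ::ₘ y)) fun x y hxy hx => h _ _ (by rw [Multiset.add_cons, hxy]) hx,
      Multiset.sum_eq_zero, add_zero]
    intro z hz
    obtain ⟨q, hq, rfl⟩ := Multiset.mem_map.1 hz
    exact h _ _ (by rw [Multiset.cons_add, Multiset.mem_antidiagonal.1 hq]) (Multiset.cons_ne_zero)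

theorem Sm_swap : Sm d s Φ = Sm d s fun a b c e => Φ c e a b := by
  unfold Sm
  refine Finset.sum_bij' (fun e _ => d - e) (fun e _ => d - e)
    (fun e _ => Finset.mem_Iic.2 tsub_le_self) (fun e _ => Finset.mem_Iic.2 tsub_le_self)
    (fun e he => tsub_tsub_cancel_of_le (Finset.mem_Iic.1 he))
    (fun e he => tsub_tsub_cancel_of_le (Finset.mem_Iic.1 he)) fun e he => ?_
  rw [tsub_tsub_cancel_of_le (Finset.mem_Iic.1 he)]
  exact anti_swap s fun x y => Φ e x (d - e) y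

/-- only the splitting with empty first part contributes -/
theorem Sm_left (h : ∀ d₁ s₁ d₂ s₂, d₁ + d₂ = d → s₁ + s₂ = s → d₁ ≠ 0 ∨ s₁ ≠ 0 →
    Φ d₁ s₁ d₂ s₂ = 0) : Sm d s Φ = Φ 0 0 d s := by
  unfold Sm
  rw [Finset.sum_eq_single 0]
  · rw [anti_left s (fun x y => Φ 0 x (d - 0) y) fun x y hxy hx =>
      h _ _ _ _ (by simp) hxy (Or.inr hx), tsub_zero]
  · intro e he h0
    refine Multiset.sum_eq_zero fun z hz => ?_
    obtain ⟨q, hq, rfl⟩ := Multiset.mem_map.1 hz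
    exact h _ _ _ _ (add_tsub_cancel_of_le (Finset.mem_Iic.1 he)) (Multiset.mem_antidiagonal.1 hq)
      (Or.inl h0)
  · intro h0
    exact absurd (Finset.mem_Iic.2 zero_le) h0

/-- only the splitting with empty second part contributes -/
theorem Sm_right (h : ∀ d₁ s₁ d₂ s₂, d₁ + d₂ = d → s₁ + s₂ = s → d₂ ≠ 0 ∨ s₂ ≠ 0 →
    Φ d₁ s₁ d₂ s₂ = 0) : Sm d s Φ = Φ d s 0 0 := by
  rw [Sm_swap, Sm_left]
  intro d₁ s₁ d₂ s₂ h1 h2 h3
  exact h _ _ _ _ (by rw [add_comm, h1]) (by rw [add_comm, h2]) h3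

/-- only splittings with no insertion in the second part contribute -/
theorem Sm_right0 (h : ∀ d₁ s₁ d₂ s₂, d₁ + d₂ = d → s₁ + s₂ = s → s₂ ≠ 0 → Φ d₁ s₁ d₂ s₂ = 0) :
    Sm d s Φ = ∑ e ∈ Finset.Iic d, Φ e s (d - e) 0 := by
  unfold Sm
  refine Finset.sum_congr rfl fun e he => ?_
  rw [anti_swap s fun x y => Φ e x (d - e) y]
  exact anti_left s (fun x y => Φ e y (d - e) x) fun x y hxy hx =>
    h _ _ _ _ (add_tsub_cancel_of_le (Finset.mem_Iic.1 he)) (by rw [add_comm, hxy]) hx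

end SmSec

theorem Sm_sub {Q : Type} [AddCommGroup Q] {d : J → ℕ} {s : Multiset H}
    {Φ Ψ : (J → ℕ) → Multiset H → (J → ℕ) → Multiset H → Q} :
    Sm d s (fun a b c e => Φ a b c e - Ψ a b c e) = Sm d s Φ - Sm d s Ψ := by
  rw [eq_sub_iff_add_eq, ← Sm_add]
  exact Sm_congr fun _ _ _ _ _ _ => sub_add_cancel _ _

namespace Num

variable {N : Num J H}

theorem In.cons {a : H} {s : Multiset H} (ha : a ∈ N.wt 0) (hs : N.In s) : N.In (a ::ₘ s) :=
  fun x hx => (Multiset.mem_cons.1 hx).elim (fun h => h ▸ ha) (hs x)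

theorem In.left {s₁ s₂ s : Multiset H} (hs : N.In s) (h : s₁ + s₂ = s) : N.In s₁ :=
  fun x hx => hs x (h ▸ Multiset.mem_add.2 (Or.inl hx))

theorem In.right {s₁ s₂ s : Multiset H} (hs : N.In s) (h : s₁ + s₂ = s) : N.In s₂ :=
  fun x hx => hs x (h ▸ Multiset.mem_add.2 (Or.inr hx))

theorem in_zero : N.In 0 := fun _ hx => absurd hx (Multiset.notMem_zero _)

namespace Ax

variable (hN : N.Ax)
include hN

theorem ext {a b : H} (h : ∀ x, N.itg (a * x) = N.itg (b * x)) : a = b :=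
  sub_eq_zero.1 (hN.pd _ fun x => by rw [sub_mul, map_sub, h, sub_self])

theorem dual (φ : H →ₗ[ℂ] ℂ) : ∃ y, ∀ x, N.itg (y * x) = φ x := by
  have := hN.fd
  let p : H →ₗ[ℂ] Module.Dual ℂ H := (LinearMap.mul ℂ H).compr₂ N.itg
  have hi : Function.Injective p := (injective_iff_map_eq_zero p).2 fun a ha =>
    hN.pd a fun b => LinearMap.congr_fun ha b
  have hs : Function.Surjective p :=
    (LinearMap.injective_iff_surjective_of_finrank_eq_finrank
      (Subspace.dual_finrank_eq).symm).1 hi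
  obtain ⟨y, hy⟩ := hs φ
  exact ⟨y, fun x => LinearMap.congr_fun hy x⟩

theorem op_spec (d : J → ℕ) {s : Multiset H} (hs : 2 ≤ s.card) (x : H) :
    N.itg (N.op d s * x) = N.gw d (x ::ₘ s) := by
  have h : ∃ y, ∀ x, N.itg (y * x) = N.gw d (x ::ₘ s) :=
    hN.dual (IsLinearMap.mk' _ (hN.lin d s hs))
  unfold op
  rw [dif_pos h]
  exact h.choose_spec x

theorem op2 (d : J → ℕ) (a b : H) (s : Multiset H) (x : H) :
    N.itg (N.op d (a ::ₘ b ::ₘ s) * x) = N.gw d (a ::ₘ x ::ₘ b ::ₘ s) := by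
  rw [hN.op_spec d (by simp), Multiset.cons_swap]

/-- the operator `x ↦ op d (x, a, s)` -/
def L (a : H) (d : J → ℕ) (s : Multiset H) : H →ₗ[ℂ] H where
  toFun x := N.op d (x ::ₘ a ::ₘ s)
  map_add' x y := hN.ext fun z => by
    rw [add_mul, map_add, hN.op2, hN.op2, hN.op2, (hN.lin d _ (by simp)).map_add]
  map_smul' c x := hN.ext fun z => by
    rw [RingHom.id_apply, smul_mul_assoc, map_smul, hN.op2, hN.op2,
      (hN.lin d _ (by simp)).map_smul]

theorem L_apply (a : H) (d : J → ℕ) (s : Multiset H) (x : H) :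
    hN.L a d s x = N.op d (x ::ₘ a ::ₘ s) := rfl

theorem L_itg (a : H) (d : J → ℕ) (s : Multiset H) (x y : H) :
    N.itg (hN.L a d s x * y) = N.gw d (x ::ₘ y ::ₘ a ::ₘ s) := hN.op2 d x a s y

theorem L_adj (a : H) (d : J → ℕ) (s : Multiset H) (x y : H) :
    N.itg (hN.L a d s x * y) = N.itg (x * hN.L a d s y) := by
  rw [hN.L_itg, mul_comm x, hN.L_itg, Multiset.cons_swap]

theorem L_symm (a : H) (d : J → ℕ) (s : Multiset H) (x : H) : hN.L a d s x = hN.L x d s a := by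
  rw [L_apply, L_apply, Multiset.cons_swap]

theorem L_cons (a b : H) (d : J → ℕ) (s : Multiset H) : hN.L a d (b ::ₘ s) = hN.L b d (a ::ₘ s) := by
  ext x
  rw [L_apply, L_apply, Multiset.cons_swap a b]

theorem L_zero (d : J → ℕ) (s : Multiset H) : hN.L 0 d s = 0 := by
  ext x
  rw [L_symm, map_zero, LinearMap.zero_apply]

theorem L_deg0 (a x : H) : hN.L a 0 0 x = a * x := hN.ext fun y => by
  rw [hN.L_itg]
  exact (hN.deg0 x y a).trans (by congr 1; ring)

theorem L_deg0' (a : H) {s : Multiset H} (hs : s ≠ 0) : hN.L a 0 s = 0 := by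
  ext x
  refine hN.pd _ fun y => ?_
  rw [hN.L_itg]
  refine hN.deg0' _ ?_
  have := Multiset.card_pos.2 hs
  simp only [Multiset.card_cons]
  omega

theorem L_div (a : H) (d : J → ℕ) (j : J) (s : Multiset H) :
    hN.L a d (N.h j ::ₘ s) = (d j : ℂ) • hN.L a d s := by
  ext x
  refine hN.ext fun y => ?_
  rw [LinearMap.smul_apply, smul_mul_assoc, map_smul, hN.L_itg, hN.L_itg, smul_eq_mul,
    ← hN.div d j _ (by simp)]
  congr 1
  rw [Multiset.cons_swap a, Multiset.cons_swap y, Multiset.cons_swap x]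

/-- a factor class of degree zero acts classically -/
theorem L_h {d : J → ℕ} {j : J} (hd : d j = 0) {s : Multiset H} (h : d ≠ 0 ∨ s ≠ 0) :
    hN.L (N.h j) d s = 0 := by
  by_cases h0 : d = 0
  · subst h0
    exact hN.L_deg0' _ (h.resolve_left fun h => h rfl)
  obtain ⟨j', hj'⟩ := Function.ne_iff.1 h0
  have h1 := hN.L_div (N.h j) d j' s
  rw [hN.L_cons, hN.L_div, hd, Nat.cast_zero, zero_smul] at h1
  exact (smul_eq_zero.1 h1.symm).resolve_left (Nat.cast_ne_zero.2 hj')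

theorem W_comm (d : J → ℕ) (s : Multiset H) (a b c e : H) : N.W d s a b c e = N.W d s b a c e := by
  unfold W
  simp only [Multiset.cons_swap a b]

/-- associativity -/
theorem assoc (a b : H) (d : J → ℕ) (s : Multiset H) (x : H) :
    (Sm d s fun d₁ s₁ d₂ s₂ => hN.L a d₂ s₂ (hN.L b d₁ s₁ x)) =
      Sm d s fun d₁ s₁ d₂ s₂ => hN.L (hN.L b d₁ s₁ a) d₂ s₂ x := by
  refine hN.ext fun y => ?_
  have e : ∀ z : H, N.itg (z * y) = (N.itg ∘ₗ LinearMap.mulRight ℂ y) z := fun z => rfl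
  rw [e, e, Sm_map, Sm_map]
  have h1 := hN.wdvv d s b x a y
  rw [hN.W_comm d s b x, hN.W_comm d s b a] at h1
  refine Eq.trans ?_ (h1.trans ?_)
  · refine Sm_congr fun d₁ s₁ d₂ s₂ _ _ => ?_
    rw [← e, hN.L_itg, hN.L_apply, Multiset.cons_swap y a]
  · refine Sm_congr fun d₁ s₁ d₂ s₂ _ _ => ?_
    rw [← e, hN.L_itg, hN.L_apply, Multiset.cons_swap y (N.op _ _), Multiset.cons_swap x (N.op _ _)]

/-- commutativity -/
theorem comm (a b : H) (d : J → ℕ) (s : Multiset H) (x : H) :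
    (Sm d s fun d₁ s₁ d₂ s₂ => hN.L a d₂ s₂ (hN.L b d₁ s₁ x)) =
      Sm d s fun d₁ s₁ d₂ s₂ => hN.L b d₂ s₂ (hN.L a d₁ s₁ x) := by
  rw [hN.assoc, hN.assoc]
  exact Sm_congr fun d₁ s₁ d₂ s₂ _ _ => by rw [hN.L_symm b]

theorem deg_left {d₁ d₂ d : J → ℕ} {j : J} (h : d₁ + d₂ = d) (hd : d j = 0) : d₁ j = 0 := by
  have := congrFun h j
  rw [Pi.add_apply] at this
  omega

theorem deg_right {d₁ d₂ d : J → ℕ} {j : J} (h : d₁ + d₂ = d) (hd : d j = 0) : d₂ j = 0 := by
  have := congrFun h j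
  rw [Pi.add_apply] at this
  omega

/-- the operators of degree zero on a factor are linear over its class -/
theorem L_mul_h {d : J → ℕ} {j : J} (hd : d j = 0) (a : H) (s : Multiset H) (x : H) :
    hN.L a d s (N.h j * x) = N.h j * hN.L a d s x := by
  have h := hN.comm a (N.h j) d s x
  rw [Sm_left, Sm_right, hN.L_deg0, hN.L_deg0] at h
  · exact h
  · intro d₁ s₁ d₂ s₂ h1 _ h3
    rw [hN.L_h (hN.deg_right h1 hd) h3, LinearMap.zero_apply]
  · intro d₁ s₁ d₂ s₂ h1 _ h3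
    rw [hN.L_h (hN.deg_left h1 hd) h3, LinearMap.zero_apply, map_zero]

theorem L_h_mul {d : J → ℕ} {j : J} (hd : d j = 0) (a : H) (s : Multiset H) (x : H) :
    hN.L (N.h j * a) d s x = N.h j * hN.L a d s x := by
  rw [hN.L_symm, hN.L_mul_h hd, hN.L_symm]

theorem L_mul_pow {d : J → ℕ} {j : J} (hd : d j = 0) (a : H) (s : Multiset H) (k : ℕ) (x : H) :
    hN.L a d s (N.h j ^ k * x) = N.h j ^ k * hN.L a d s x := by
  induction k with
  | zero => simp
  | succ k ih => rw [pow_succ', mul_assoc, hN.L_mul_h hd, ih, mul_assoc]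

/-- a class orthogonal to all weights except `-w` has weight `w` -/
theorem mem_wt {w : ℤ} {y : H} (h : ∀ w', w + w' ≠ 0 → ∀ x ∈ N.wt w', N.itg (y * x) = 0) :
    y ∈ N.wt w := by
  classical
  have hy : y ∈ ⨆ w, N.wt w := hN.wt_top ▸ Submodule.mem_top
  obtain ⟨f, hf, rfl⟩ := (Submodule.mem_iSup_iff_exists_finsupp _ _).1 hy
  have key : ∀ v ∈ f.support, v ≠ w → f v = 0 := by
    intro v hv hvw
    refine hN.pd _ fun x => ?_
    have hx : x ∈ ⨆ w, N.wt w := hN.wt_top ▸ Submodule.mem_top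
    induction hx using Submodule.iSup_induction' with
    | zero => simp
    | add a b _ _ ha hb => rw [mul_add, map_add, ha, hb, add_zero]
    | mem w' x hx =>
      by_cases h1 : v + w' = 0
      · have h2 := h w' (by omega) x hx
        rw [Finsupp.sum, Finset.sum_mul, map_sum, Finset.sum_eq_single v] at h2
        · exact h2
        · intro v' _ hv'
          exact hN.wt_itg (hN.wt_mul (hf v') hx) (by omega)
        · intro h3
          exact absurd hv h3
      · exact hN.wt_itg (hN.wt_mul (hf v) hx) h1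
  refine sum_mem fun v hv => ?_
  by_cases hvw : v = w
  · exact hvw ▸ hf v
  · simp only [key v hv hvw, zero_mem]

theorem L_mem {a : H} (ha : a ∈ N.wt 0) (d : J → ℕ) {s : Multiset H} (hs : N.In s) {w : ℤ} {x : H}
    (hx : x ∈ N.wt w) : hN.L a d s x ∈ N.wt w :=
  hN.mem_wt fun w' hw y hy => by
    rw [hN.L_itg]
    exact hN.typ d _ (hs.cons ha) Multiset.cons_ne_zero hx hy hw

theorem pow_mem {a : H} (ha : a ∈ N.wt 0) (k : ℕ) : a ^ k ∈ N.wt 0 := by
  induction k with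
  | zero => simpa using hN.wt_one
  | succ k ih => rw [pow_succ]; simpa using hN.wt_mul ih ha

theorem mul_mem {a x : H} {w : ℤ} (ha : a ∈ N.wt 0) (hx : x ∈ N.wt w) : a * x ∈ N.wt w := by
  simpa using hN.wt_mul ha hx

end Ax

end Num

end Crest.Agent.X262.Qn
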