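import Mathlib

/-!
# Row 262, road B (helper55): genus zero numbers and the master datum

* `Num J H`, `Num.Ax` : integral, factor classes, weight grading (`p - q`) and the numbers
  `gw d s` on a finite dimensional commutative algebra; `op d s` is the dual class;
* `Num.Cm N u u'`     : `u` (on weight `2`) and `u'` (on weight `-2`) commute with all numbers;
* `Mst`, `Mst.Ax`     : the classes and numbers of the space `B` over `Y × P ^ n`;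
* `Fin`, `Fin.Ax`     : an end of `B`;  `EndHyp` : the hypothesis at the trivial end;
* `CoreStmt`          : the transfer from the trivial end to any end.
-/

set_option autoImplicit false

noncomputable section

namespace Crest.Agent.X262.Qn

open Polynomial

/-- genus zero numbers -/
structure Num (J H : Type) [CommRing H] [Algebra ℂ H] where
  /-- the integral -/
  itg : H →ₗ[ℂ] ℂ
  /-- the hyperplane classes of the factors of the ambient space -/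
  h : J → H
  /-- the span of the classes of type `(p, q)` with `p - q = w` -/
  wt : ℤ → Submodule ℂ H
  /-- the numbers of multidegree `d` (for at least three insertions) -/
  gw : (J → ℕ) → Multiset H → ℂ

variable {J H : Type} [Fintype J] [DecidableEq J] [CommRing H] [Algebra ℂ H]

/-- the sum over all splittings of a multidegree and of a family of insertions -/
def Sm {Q : Type} [AddCommMonoid Q] (d : J → ℕ) (s : Multiset H)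
    (Φ : (J → ℕ) → Multiset H → (J → ℕ) → Multiset H → Q) : Q :=
  ∑ e ∈ Finset.Iic d, (s.antidiagonal.map fun q => Φ e q.1 (d - e) q.2).sum

namespace Num

variable (N : Num J H)

open Classical in
/-- the class dual to `x ↦ gw d (x ::ₘ s)` -/
def op (d : J → ℕ) (s : Multiset H) : H :=
  if h : ∃ y, ∀ x, N.itg (y * x) = N.gw d (x ::ₘ s) then h.choose else 0

/-- one side of the associativity relation -/
def W (d : J → ℕ) (s : Multiset H) (a b c e : H) : ℂ :=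
  Sm d s fun d₁ s₁ d₂ s₂ => N.gw d₂ (N.op d₁ (a ::ₘ b ::ₘ s₁) ::ₘ c ::ₘ e ::ₘ s₂)

/-- all insertions have weight zero -/
def In (s : Multiset H) : Prop := ∀ a ∈ s, a ∈ N.wt 0

/-- the axioms -/
structure Ax : Prop where
  fd : FiniteDimensional ℂ H
  pd : ∀ a : H, (∀ b, N.itg (a * b) = 0) → a = 0
  wt_top : ⨆ w, N.wt w = ⊤
  wt_one : (1 : H) ∈ N.wt 0
  wt_h : ∀ j, N.h j ∈ N.wt 0
  wt_mul : ∀ {w w' : ℤ} {a b : H}, a ∈ N.wt w → b ∈ N.wt w' → a * b ∈ N.wt (w + w')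
  wt_itg : ∀ {w : ℤ} {a : H}, a ∈ N.wt w → w ≠ 0 → N.itg a = 0
  lin : ∀ (d : J → ℕ) (s : Multiset H), 2 ≤ s.card → IsLinearMap ℂ fun a => N.gw d (a ::ₘ s)
  typ : ∀ (d : J → ℕ) (s : Multiset H) {w w' : ℤ} {x y : H}, N.In s → s ≠ 0 → x ∈ N.wt w →
    y ∈ N.wt w' → w + w' ≠ 0 → N.gw d (x ::ₘ y ::ₘ s) = 0
  deg0 : ∀ a b c : H, N.gw 0 {a, b, c} = N.itg (a * b * c)
  deg0' : ∀ s : Multiset H, 3 < s.card → N.gw 0 s = 0
  div : ∀ (d : J → ℕ) (j : J) (s : Multiset H), 3 ≤ s.card →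
    N.gw d (N.h j ::ₘ s) = d j * N.gw d s
  wdvv : ∀ (d : J → ℕ) (s : Multiset H) (a b c e : H), N.W d s a b c e = N.W d s a c b e

/-- `u` on the classes of weight `2`, with adjoint `u'` on the classes of weight `-2`, commutes
with all operators -/
def Cm (u u' : H →ₗ[ℂ] H) : Prop :=
  ∀ (d : J → ℕ) (s : Multiset H), N.In s → s ≠ 0 → ∀ x ∈ N.wt 2, ∀ y ∈ N.wt (-2),
    N.gw d (u x ::ₘ y ::ₘ s) = N.gw d (x ::ₘ u' y ::ₘ s)

end Num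

/-- the data of the space `B → Y × P ^ n`; `Ω`, `Ω'` are the classes of type `(3,1)`, `(1,3)` of
`Y` -/
structure Mst (J H Ω Ω' : Type) [CommRing H] [Algebra ℂ H] [AddCommGroup Ω] [Module ℂ Ω]
    [AddCommGroup Ω'] [Module ℂ Ω'] where
  /-- the factor `P ^ n` -/
  jS : J
  /-- the factor of an embedding of `Y` -/
  jA : J
  /-- the factor `P ^ (n + 1)` -/
  jG : J
  /-- the dimension of the base -/
  n : ℕ
  /-- the pairing on `Y` -/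
  β : Ω →ₗ[ℂ] Ω' →ₗ[ℂ] ℂ
  /-- pull-back from `Y` -/
  ζ : Ω →ₗ[ℂ] H
  /-- pull-back from `Y` -/
  ζ' : Ω' →ₗ[ℂ] H

variable {Ω Ω' : Type} [AddCommGroup Ω] [Module ℂ Ω] [AddCommGroup Ω'] [Module ℂ Ω']

namespace Mst

variable (N : Num J H) (m : Mst J H Ω Ω')

/-- `λ` -/
abbrev lam : H := N.h m.jS

/-- `G` -/
abbrev G : H := N.h m.jG

/-- `ρ (λ) + σ (λ) G` -/
def cl (ρ σ : ℂ[X]) : H := aeval (m.lam N) ρ + aeval (m.lam N) σ * m.G N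

/-- a class pulled back from `Ω` or `Ω'` -/
def IsV (v : H) : Prop := (∃ ω, v = m.ζ ω) ∨ ∃ ω', v = m.ζ' ω'

/-- the span of the `λ ^ k ζ ω` and `λ ^ k G ζ ω` -/
def M : Submodule ℂ H :=
  Submodule.span ℂ {x | ∃ (k : ℕ) (ω : Ω), x = m.lam N ^ k * m.ζ ω ∨
    x = m.lam N ^ k * (m.G N * m.ζ ω)}

/-- the span of the `λ ^ k ζ' ω'` and `λ ^ k G ζ' ω'` -/
def M' : Submodule ℂ H :=
  Submodule.span ℂ {x | ∃ (k : ℕ) (ω : Ω'), x = m.lam N ^ k * m.ζ' ω ∨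
    x = m.lam N ^ k * (m.G N * m.ζ' ω)}

/-- the facts used about `B` -/
structure Ax : Prop where
  βl : ∀ ω, (∀ ω', m.β ω ω' = 0) → ω = 0
  βr : ∀ ω', (∀ ω, m.β ω ω' = 0) → ω' = 0
  ζ_mem : ∀ ω, m.ζ ω ∈ N.wt 2
  ζ'_mem : ∀ ω', m.ζ' ω' ∈ N.wt (-2)
  lam_pow : m.lam N ^ (m.n + 1) = 0
  nil : IsNilpotent (N.h m.jA)
  sq : m.G N * m.G N = m.lam N * m.G N
  A_mul : ∀ v, m.IsV v → N.h m.jA * v = 0
  pair0 : ∀ ω ω' (k : ℕ), N.itg (m.ζ ω * m.ζ' ω' * m.lam N ^ k) = 0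
  pair1 : ∀ ω ω' (k : ℕ), N.itg (m.ζ ω * m.ζ' ω' * m.G N * m.lam N ^ k) =
    if k = m.n then m.β ω ω' else 0
  /-- curves of degree `0` on the factor of `Y` are contracted in `Y` -/
  vert : ∀ (d : J → ℕ) (s : Multiset H), d m.jS = 0 → d m.jA = 0 → s ≠ 0 → ∀ v, m.IsV v →
    ∀ x y : H, N.gw d (v * x ::ₘ y ::ₘ s) = N.gw d (x ::ₘ v * y ::ₘ s)
  kill : ∀ a ∈ N.wt 0, ∃ ρ σ : ℂ[X], ∀ v, m.IsV v → v * a = v * m.cl N ρ σ
  /-- the number of the general fibre; `pt` is the class of a point -/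
  num : ∃ (d : J → ℕ) (pt : H), d m.jS = 0 ∧ d m.jA = 0 ∧ d m.jG = 1 ∧
    (∀ ω ω', m.ζ ω * m.ζ' ω' * m.G N * m.lam N ^ m.n = m.β ω ω' • pt) ∧
    N.gw d {m.G N, m.G N, pt} ≠ 0

end Mst

/-- an end of `B`: `F`, `F'` are the classes of type `(3,1)`, `(1,3)` of a model `Y₁ → Y`, `b` is
the class of the divisor `Y₁ × P ^ n` of `B`, `i`, `i'` are the Gysin maps -/
structure Fin (H Ω Ω' F F' : Type) [CommRing H] [Algebra ℂ H] [AddCommGroup Ω] [Module ℂ Ω]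
    [AddCommGroup Ω'] [Module ℂ Ω'] [AddCommGroup F] [Module ℂ F] [AddCommGroup F']
    [Module ℂ F'] where
  /-- the class of the end -/
  b : H
  /-- the pairing on the model -/
  γ : F →ₗ[ℂ] F' →ₗ[ℂ] ℂ
  /-- pull-back from `Y` -/
  r : Ω →ₗ[ℂ] F
  /-- pull-back from `Y` -/
  r' : Ω' →ₗ[ℂ] F'
  /-- Gysin map -/
  i : F →ₗ[ℂ] H
  /-- Gysin map -/
  i' : F' →ₗ[ℂ] H

variable {F F' : Type} [AddCommGroup F] [Module ℂ F] [AddCommGroup F'] [Module ℂ F']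

namespace Fin

variable (N : Num J H) (m : Mst J H Ω Ω') (e : Fin H Ω Ω' F F')

/-- the facts used about an end -/
structure Ax : Prop where
  b_mem : e.b ∈ N.wt 0
  i_mem : ∀ x, e.i x ∈ N.wt 2
  i'_mem : ∀ y, e.i' y ∈ N.wt (-2)
  γ_r : ∀ ω ω', e.γ (e.r ω) (e.r' ω') = m.β ω ω'
  i_r : ∀ ω, e.i (e.r ω) = e.b * m.ζ ω
  i_r' : ∀ ω', e.i' (e.r' ω') = e.b * m.ζ' ω'
  perp : ∀ x, (∀ ω', e.γ x (e.r' ω') = 0) → ∀ y ∈ m.M' N, N.itg (e.i x * y) = 0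
  perp' : ∀ y, (∀ ω, e.γ (e.r ω) y = 0) → ∀ x ∈ m.M N, N.itg (x * e.i' y) = 0

/-- `U` is the extension by zero of `u`, `U'` is the extension by zero of `u'` -/
structure Ext (u : Ω →ₗ[ℂ] Ω) (u' : Ω' →ₗ[ℂ] Ω') (U : F →ₗ[ℂ] F) (U' : F' →ₗ[ℂ] F') : Prop where
  on : ∀ ω, U (e.r ω) = e.r (u ω)
  off : ∀ x, (∀ ω', e.γ x (e.r' ω') = 0) → U x = 0
  on' : ∀ ω', U' (e.r' ω') = e.r' (u' ω')
  off' : ∀ y, (∀ ω, e.γ (e.r ω) y = 0) → U' y = 0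

/-- the hypothesis at the trivial end: in degree `0` for `G` the operators preserve the span of the
`λ ^ k i x` and act there by endomorphisms which commute with `U` -/
def EndHyp (U : F →ₗ[ℂ] F) (U' : F' →ₗ[ℂ] F') : Prop :=
  ∀ (d : J → ℕ) (s : Multiset H), d m.jS = 0 → d m.jG = 0 → N.In s → s ≠ 0 →
    (∃ T : ℕ → F →ₗ[ℂ] F, (∀ k x, T k (U x) = U (T k x)) ∧
      ∀ x, N.op d (e.i x ::ₘ s) = ∑ k ∈ Finset.range (m.n + 1), m.lam N ^ k * e.i (T k x)) ∧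
    ∃ T : ℕ → F' →ₗ[ℂ] F', (∀ k y, T k (U' y) = U' (T k y)) ∧
      ∀ y, N.op d (e.i' y ::ₘ s) = ∑ k ∈ Finset.range (m.n + 1), m.lam N ^ k * e.i' (T k y)

/-- the conclusion at an end -/
def Out (U : F →ₗ[ℂ] F) (U' : F' →ₗ[ℂ] F') : Prop :=
  ∀ (d : J → ℕ) (s : Multiset H), d m.jS = 0 → N.In s → s ≠ 0 → ∀ (k : ℕ) (x : F) (y : F'),
    N.gw d (e.i (U x) ::ₘ (m.lam N ^ k * e.i' y) ::ₘ s) =
      N.gw d (e.i x ::ₘ (m.lam N ^ k * e.i' (U' y)) ::ₘ s)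

end Fin

/-- **transfer** from the trivial end `e₁` (class `G`) to any end `e₂` -/
def CoreStmt : Prop :=
  ∀ {J H Ω Ω' F₁ F₁' F₂ F₂' : Type} [Fintype J] [DecidableEq J] [CommRing H] [Algebra ℂ H]
    [AddCommGroup Ω] [Module ℂ Ω] [AddCommGroup Ω'] [Module ℂ Ω']
    [AddCommGroup F₁] [Module ℂ F₁] [AddCommGroup F₁'] [Module ℂ F₁']
    [AddCommGroup F₂] [Module ℂ F₂] [AddCommGroup F₂'] [Module ℂ F₂']
    (N : Num J H) (m : Mst J H Ω Ω') (e₁ : Fin H Ω Ω' F₁ F₁') (e₂ : Fin H Ω Ω' F₂ F₂')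
    (u : Ω →ₗ[ℂ] Ω) (u' : Ω' →ₗ[ℂ] Ω') (U₁ : F₁ →ₗ[ℂ] F₁) (U₁' : F₁' →ₗ[ℂ] F₁')
    (U₂ : F₂ →ₗ[ℂ] F₂) (U₂' : F₂' →ₗ[ℂ] F₂'),
    N.Ax → m.Ax N → e₁.Ax N m → e₂.Ax N m → e₁.b = m.G N →
    (∀ ω ω', m.β (u ω) ω' = m.β ω (u' ω')) →
    e₁.Ext u u' U₁ U₁' → e₂.Ext u u' U₂ U₂' → e₁.EndHyp N m U₁ U₁' → e₂.Out N m U₂ U₂'

end Crest.Agent.X262.Qn
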