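import Crest.Agent.X262.Vb.Defs
import Crest.Agent.X262.Qn.Defs

/-!
# Row 262, road B (helper59): evaluation of classes, the numbers of a target

* `Ev B io H`    : a finite dimensional algebra `H` (the even cohomology of the target) with
  evaluation maps at the field-valued points; `Ev.fam`;
* `Ev.Ax T c`    : what is needed about it;
* `Ev.num T`     : the numbers `gw d s`.
-/

set_option autoImplicit false
set_option linter.unusedSectionVars false

noncomputable section

namespace Crest.Agent.X262.Qn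

open Crest.Agent.X262.Vb

/-- evaluation of the classes of a target -/
structure Ev (B : Hb.Th) {J : Type} (io : J → Type) (H : Type) [CommRing H] [Algebra ℂ H] where
  /-- evaluation at a point (any algebra map if the point is not on the target) -/
  ev : ∀ (E : Type) [Field E] [Algebra ℂ E], Pnt io E → (H →ₐ[ℂ] B.H E)
  /-- the integral -/
  itg : H →ₗ[ℂ] ℂ
  /-- the hyperplane classes -/
  h : J → H
  /-- the Hodge types -/
  typ : ℕ → ℕ → Submodule ℂ H

namespace Ev

variable {B : Hb.Th} {J : Type} [Fintype J] [DecidableEq J] {io : J → Type} [∀ j, Fintype (io j)]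
  [∀ j, DecidableEq (io j)] {A : Type} [Fintype A] {H : Type} [CommRing H] [Algebra ℂ H]
  (e : Ev B io H) (T : Tgt io A)

/-- the family of a class -/
def fam (a : H) : Fam B io := fun E _ _ y => e.ev E y a

/-- the span of the types `(p, q)` with `p - q = w` -/
def wt (w : ℤ) : Submodule ℂ H := ⨆ (p : ℕ) (q : ℕ) (_ : (p : ℤ) - q = w), e.typ p q

/-- the facts about the evaluation; `c` is the codimension -/
structure Ax (c : ℕ) : Prop where
  cls : ∀ a, Cls B T (e.fam a)
  hc : ∀ (j : J) (E : Type) [Field E] [Algebra ℂ E] [Algebra.EssFiniteType ℂ E] (y : Pnt io E),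
    NZ y → T.On y → e.ev E y (e.h j) = hc B j E y
  ty : ∀ {p q : ℕ} {a : H}, a ∈ e.typ p q → ∀ (E : Type) [Field E] [Algebra ℂ E]
    [Algebra.EssFiniteType ℂ E] (y : Pnt io E), NZ y → T.On y → e.ev E y a ∈ B.ty E p q
  gen : ∃ (K : Type) (_ : Field K) (_ : Algebra ℂ K) (_ : Algebra.EssFiniteType ℂ K)
    (y₀ : Pnt io K), GenPt T c y₀ ∧ ∀ a, B.itg K (e.ev K y₀ a) = e.itg a
  pd : ∀ a : H, (∀ b, e.itg (a * b) = 0) → a = 0
  /-- dual bases decompose the diagonal -/
  diag : ∃ (ι : Type) (_ : Fintype ι) (u u' : ι → H),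
    (∀ a b, e.itg (a * b) = ∑ l, e.itg (a * u l) * e.itg (b * u' l)) ∧
      Diag B T (fun l => e.fam (u l)) fun l => e.fam (u' l)
  typ_top : ⨆ (p : ℕ) (q : ℕ), e.typ p q = ⊤
  typ_one : (1 : H) ∈ e.typ 0 0
  typ_h : ∀ j, e.h j ∈ e.typ 1 1
  typ_mul : ∀ {p q p' q' : ℕ} {a b : H}, a ∈ e.typ p q → b ∈ e.typ p' q' →
    a * b ∈ e.typ (p + p') (q + q')
  typ_itg : ∀ {p q : ℕ} {a : H}, a ∈ e.typ p q → p ≠ q → e.itg a = 0

open Classical in
/-- the numbers of the target -/
def num : Num J H where
  itg := e.itg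
  h := e.h
  wt := e.wt
  gw d s := GW B T d (prd fun q : s.ToType => e.fam q)

end Ev

end Crest.Agent.X262.Qn
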