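import Crest.Agent.X262.Qn.Line2
import Crest.Agent.X262.Gwb.Mst

/-!
# Row 262, road B (helper55): `Gwb.GcStmt`
-/

set_option autoImplicit false

noncomputable section

namespace Crest.Agent.X262.Qn

/-- **GC** -/
theorem gcStmt : Gwb.GcStmt := by
  intro J H _ _ _ _ Q A h jA jG jS e h1 h2 h3 h4 h5 h6 h7 h8 h9 h10 h11 h12 d l hS hl h0 x hx
  exact gc_inv
    { dv := h1, hA := h2, one := h3, opA := h4, nilD := h6, nilS := h5, GG := h7, DE := h8
      vert := fun d l hA _ _ _ x _ => h9 d hA x l
      kill := h10, num := h11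
      fin := fun d l hG hS => h12 d l hS hG } d l hS hl h0 hx

end Crest.Agent.X262.Qn
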