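import Crest.Agent.X262.Qn.Sy

/-!
# Row 262, road B (helper55): the span of the `λ ^ k e`, `λ ^ k G e` is invariant

`LineHyp.line` : if the vertical operators and the operators of degree `0` for `G` keep the span,
and the number of the general fibre is not zero, then all operators keep it.
-/

set_option autoImplicit false
set_option linter.unusedSectionVars false

noncomputable section

namespace Crest.Agent.X262.Qn

variable {J H : Type} [Fintype J] [DecidableEq J] [CommRing H] [Algebra ℂ H]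

theorem dom0 {Q : Type} [AddCommGroup Q] [Module ℂ Q] (y : (J → ℕ) → ℂ) (ψ : (J → ℕ) → Q)
    {e₁ : J → ℕ} (h1 : y e₁ ≠ 0) (h : ∀ d, ∑ e ∈ Finset.Iic d, y e • ψ (d - e) = 0) (f : J → ℕ) :
    ψ f = 0 := by
  classical
  by_contra hf
  let _ : LinearOrder J := LinearOrder.lift' (Fintype.equivFin J) (Fintype.equivFin J).injective
  have wf : WellFounded fun a b : J → ℕ => toLex a < toLex b :=
    InvImage.wf toLex (wellFounded_lt (α := Lex (J → ℕ)))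
  obtain ⟨e₀, he₀, me⟩ := wf.has_min {e | y e ≠ 0} ⟨e₁, h1⟩
  obtain ⟨f₀, hf₀, mf⟩ := wf.has_min {f | ψ f ≠ 0} ⟨f, hf⟩
  have h2 := h (e₀ + f₀)
  rw [Finset.sum_eq_single e₀, add_tsub_cancel_left] at h2
  · exact (smul_eq_zero.1 h2).elim he₀ hf₀
  · intro e he hne
    by_contra h3
    have h4 : y e ≠ 0 := fun h => h3 (by rw [h, zero_smul])
    have h5 : ψ (e₀ + f₀ - e) ≠ 0 := fun h => h3 (by rw [h, smul_zero])
    have h6 : toLex e₀ < toLex e :=
      lt_of_le_of_ne (not_lt.1 (me e h4)) fun h => hne (toLex.injective h).symm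
    have h7 := add_lt_add_of_lt_of_le h6 (not_lt.1 (mf _ h5))
    rw [← toLex_add, ← toLex_add, add_tsub_cancel_of_le (Finset.mem_Iic.1 he)] at h7
    exact lt_irrefl _ h7
  · intro h3
    exact absurd (Finset.mem_Iic.2 le_self_add) h3

theorem dom {N : Sy J H} {Q : Type} [AddCommGroup Q] [Module ℂ Q] (y : (J → ℕ) → Multiset H → ℂ)
    (ψ : (J → ℕ) → Multiset H → Q) {e₁ : J → ℕ} (h1 : y e₁ 0 ≠ 0)
    (h : ∀ d s, N.In s → (Sm d s fun d₁ s₁ d₂ s₂ => y d₁ s₁ • ψ d₂ s₂) = 0) (s : Multiset H) :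
    N.In s → ∀ d, ψ d s = 0 := by
  induction s using Multiset.strongInductionOn with
  | _ s ih =>
    intro hs
    refine dom0 (fun e => y e 0) (fun f => ψ f s) h1 fun d => ?_
    have h2 := h d s hs
    rw [Sm_swap, Sm_right0] at h2
    · refine Eq.trans ?_ h2
      refine Finset.sum_bij' (fun e _ => d - e) (fun e _ => d - e)
        (fun e _ => Finset.mem_Iic.2 tsub_le_self) (fun e _ => Finset.mem_Iic.2 tsub_le_self)
        (fun e he => tsub_tsub_cancel_of_le (Finset.mem_Iic.1 he))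
        (fun e he => tsub_tsub_cancel_of_le (Finset.mem_Iic.1 he)) fun e he => ?_
      rw [tsub_tsub_cancel_of_le (Finset.mem_Iic.1 he)]
    · intro d₁ s₁ d₂ s₂ _ h3 h4
      rw [ih s₁ (h3 ▸ lt_add_of_pos_right _ (pos_iff_ne_zero.2 h4)) (hs.left h3), smul_zero]

theorem Sm_smul {Q : Type} [AddCommGroup Q] [Module ℂ Q] {d : J → ℕ} {s : Multiset H} (c : ℂ)
    (Φ : (J → ℕ) → Multiset H → (J → ℕ) → Multiset H → Q) :
    c • Sm d s Φ = Sm d s fun a b f e => c • Φ a b f e :=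
  Sm_map (DistribSMul.toAddMonoidHom Q c)

/-- the span of the `λ ^ k e` and `λ ^ k G e` -/
abbrev Me (lam G e : H) : Submodule ℂ H := Gc84.Me ℂ lam G e

section MeSec

variable {lam G e : H}

theorem Me.e_mem : e ∈ Me lam G e := Submodule.subset_span ⟨0, Or.inl (by simp)⟩

theorem Me.Ge_mem : G * e ∈ Me lam G e := Submodule.subset_span ⟨0, Or.inr (by simp)⟩

theorem Me.map_mem {W : Submodule ℂ H} (f : H →ₗ[ℂ] H) (h1 : ∀ k, f (lam ^ k * e) ∈ W)
    (h2 : ∀ k, f (lam ^ k * (G * e)) ∈ W) {m : H} (hm : m ∈ Me lam G e) : f m ∈ W := by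
  have : Me lam G e ≤ W.comap f := Submodule.span_le.2 (by
    rintro _ ⟨k, rfl | rfl⟩
    exacts [h1 k, h2 k])
  exact this hm

theorem Me.lam_mul {m : H} (hm : m ∈ Me lam G e) : lam * m ∈ Me lam G e :=
  Me.map_mem (W := Me lam G e) (LinearMap.mulLeft ℂ lam)
    (fun k => Submodule.subset_span (by exact ⟨k + 1, Or.inl (by simp [pow_succ', mul_assoc])⟩))
    (fun k => Submodule.subset_span (by exact ⟨k + 1, Or.inr (by simp [pow_succ', mul_assoc])⟩)) hm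

theorem Me.pow_mul (k : ℕ) {m : H} (hm : m ∈ Me lam G e) : lam ^ k * m ∈ Me lam G e := by
  induction k with
  | zero => simpa using hm
  | succ k ih => rw [pow_succ', mul_assoc]; exact Me.lam_mul ih

theorem Me.dec {m : H} (hm : m ∈ Me lam G e) :
    ∃ (α β : ℂ), ∃ z ∈ Me lam G e, m = α • e + β • (G * e) + lam * z := by
  induction hm using Submodule.span_induction with
  | mem x hx =>
    obtain ⟨_ | k, rfl | rfl⟩ := hx
    · exact ⟨1, 0, 0, zero_mem _, by simp⟩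
    · exact ⟨0, 1, 0, zero_mem _, by simp⟩
    · exact ⟨0, 0, _, Me.pow_mul k Me.e_mem, by simp [pow_succ', mul_assoc]⟩
    · exact ⟨0, 0, _, Me.pow_mul k Me.Ge_mem, by simp [pow_succ', mul_assoc]⟩
  | zero => exact ⟨0, 0, 0, zero_mem _, by simp⟩
  | add x y _ _ hx hy =>
    obtain ⟨α, β, z, hz, rfl⟩ := hx
    obtain ⟨α', β', z', hz', rfl⟩ := hy
    exact ⟨α + α', β + β', z + z', add_mem hz hz', by simp only [add_smul, mul_add]; abel⟩
  | smul c x _ hx =>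
    obtain ⟨α, β, z, hz, rfl⟩ := hx
    exact ⟨c * α, c * β, c • z, Submodule.smul_mem _ c hz, by
      simp only [smul_add, mul_smul, mul_smul_comm]⟩

end MeSec

/-- the powers of the ideal `(a, b)` -/
def Pw (a b : H) : ℕ → Submodule ℂ H
  | 0 => ⊤
  | r + 1 => (Pw a b r).map (LinearMap.mulLeft ℂ a) ⊔ (Pw a b r).map (LinearMap.mulLeft ℂ b)

theorem Pw.map_mem {a b : H} (f : H →ₗ[ℂ] H) (ha : ∀ x, f (a * x) = a * f x)
    (hb : ∀ x, f (b * x) = b * f x) (r : ℕ) : ∀ x ∈ Pw a b r, f x ∈ Pw a b r := by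
  induction r with
  | zero => exact fun _ _ => Submodule.mem_top
  | succ r ih =>
    intro x hx
    obtain ⟨_, ⟨y, hy, rfl⟩, _, ⟨z, hz, rfl⟩, rfl⟩ := Submodule.mem_sup.1 hx
    rw [map_add]
    exact Submodule.add_mem_sup ⟨f y, ih y hy, (ha y).symm⟩ ⟨f z, ih z hz, (hb z).symm⟩

theorem Pw.nil {a b : H} (ha : IsNilpotent a) (hb : IsNilpotent b) :
    ∃ r, ∀ x ∈ Pw a b r, x = 0 := by
  have key : ∀ r, ∀ x ∈ Pw a b r, x ∈ (Ideal.span {a} + Ideal.span {b} : Ideal H) ^ r := by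
    intro r
    induction r with
    | zero => simp
    | succ r ih =>
      intro x hx
      obtain ⟨_, ⟨y, hy, rfl⟩, _, ⟨z, hz, rfl⟩, rfl⟩ := Submodule.mem_sup.1 hx
      rw [pow_succ']
      exact add_mem (Ideal.mul_mem_mul (Ideal.mem_sup_left (Ideal.mem_span_singleton_self a)) (ih y hy))
        (Ideal.mul_mem_mul (Ideal.mem_sup_right (Ideal.mem_span_singleton_self b)) (ih z hz))
  have h1 : ∀ c : H, IsNilpotent c → IsNilpotent (Ideal.span {c} : Ideal H) := by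
    rintro c ⟨k, hk⟩
    exact ⟨k, by rw [Ideal.span_singleton_pow, hk]; simp⟩
  obtain ⟨r, hr⟩ := (Commute.all _ _).isNilpotent_add (h1 a ha) (h1 b hb)
  refine ⟨r, fun x hx => ?_⟩
  have h2 := key r x hx
  rw [hr] at h2
  exact (Submodule.mem_bot H).1 h2

/-- the hypotheses of `line` -/
structure LineHyp (N : Sy J H) (jS jA jG : J) (e : H) : Prop where
  nS : IsNilpotent (N.h jS)
  nA : IsNilpotent (N.h jA)
  sq : N.h jG * N.h jG = N.h jS * N.h jG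
  Ae : N.h jA * e = 0
  vert : ∀ (d : J → ℕ) (s : Multiset H), d jS = 0 → d jA = 0 → N.In s → s ≠ 0 →
    ∀ x ∈ N.A, N.op d ((e * x) ::ₘ s) = e * N.op d (x ::ₘ s)
  kill : ∀ a ∈ N.A, e * a ∈ Me (N.h jS) (N.h jG) e
  num : ∃ d : J → ℕ, d jS = 0 ∧ d jA = 0 ∧ d jG = 1 ∧ ∃ y t : ℂ, y ≠ 0 ∧
    ∃ z ∈ Me (N.h jS) (N.h jG) e,
      N.op d ((N.h jG * e) ::ₘ {N.h jG}) = y • e + t • (N.h jG * e) + N.h jS * z
  fin : ∀ (d : J → ℕ) (s : Multiset H), d jS = 0 → d jG = 0 → N.In s → s ≠ 0 →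
    N.op d ((N.h jG * e) ::ₘ s) ∈ Me (N.h jS) (N.h jG) e

namespace LineHyp

variable {N : Sy J H} {jS jA jG : J} {e : H} (hN : N.Ax) (h : LineHyp N jS jA jG e)

local notation "lam" => N.h jS
local notation "G" => N.h jG
local notation "D" => N.h jA
local notation "M" => Me (N.h jS) (N.h jG) e

include h in
theorem D_mul {m : H} (hm : m ∈ M) : D * m = 0 :=
  (Submodule.mem_bot ℂ).1 (Me.map_mem (LinearMap.mulLeft ℂ D)
    (fun k => (Submodule.mem_bot ℂ).2 (by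
      rw [LinearMap.mulLeft_apply, mul_left_comm, h.Ae, mul_zero]))
    (fun k => (Submodule.mem_bot ℂ).2 (by
      rw [LinearMap.mulLeft_apply, mul_left_comm, mul_left_comm D, h.Ae, mul_zero, mul_zero])) hm)

include h in
theorem G_mul {m : H} (hm : m ∈ M) : G * m ∈ M :=
  Me.map_mem (LinearMap.mulLeft ℂ G)
    (fun k => by rw [LinearMap.mulLeft_apply, mul_left_comm]; exact Me.pow_mul k Me.Ge_mem)
    (fun k => by
      rw [LinearMap.mulLeft_apply, mul_left_comm, ← mul_assoc G, h.sq, mul_assoc]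
      exact Me.pow_mul k (Me.lam_mul Me.Ge_mem)) hm

include h in
theorem keep0 {a : H} (ha : a ∈ N.A) {d : J → ℕ} {s : Multiset H} (hS : d jS = 0)
    (hA : d jA = 0) (hs : N.In s) {m : H} (hm : m ∈ M) : hN.L a d s m ∈ M := by
  have key : ∀ x ∈ N.A, hN.L a d s (e * x) ∈ M := fun x hx => by
    rw [hN.L_apply, h.vert d _ hS hA (hs.cons ha) Multiset.cons_ne_zero x hx]
    exact h.kill _ (hN.L_mem ha d hs hx)
  refine Me.map_mem _ (fun k => ?_) (fun k => ?_) hm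
  · rw [mul_comm]
    exact key _ (hN.pow_mem (hN.wt_h _) k)
  · rw [← mul_assoc, mul_comm]
    exact key _ (hN.mul_mem (hN.pow_mem (hN.wt_h _) k) (hN.wt_h _))

variable (N jS jA jG e) in
/-- the filtration -/
def Fl (r : ℕ) : Submodule ℂ H := M ⊔ Pw lam D r

theorem M_le {r : ℕ} {x : H} (hx : x ∈ M) : x ∈ Fl N jS jA jG e r := Submodule.mem_sup_left hx

theorem Fl_map {r : ℕ} (f : H →ₗ[ℂ] H) (h0 : ∀ x ∈ M, f x ∈ M) (ha : ∀ x, f (lam * x) = lam * f x)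
    (hb : ∀ x, f (D * x) = D * f x) {x : H} (hx : x ∈ Fl N jS jA jG e r) :
    f x ∈ Fl N jS jA jG e r := by
  obtain ⟨y, hy, z, hz, rfl⟩ := Submodule.mem_sup.1 hx
  rw [map_add]
  exact Submodule.add_mem_sup (h0 y hy) (Pw.map_mem f ha hb r z hz)

theorem Fl_lam {r : ℕ} {x : H} (hx : x ∈ Fl N jS jA jG e r) :
    lam * x ∈ Fl N jS jA jG e (r + 1) := by
  obtain ⟨y, hy, z, hz, rfl⟩ := Submodule.mem_sup.1 hx
  rw [mul_add]
  exact Submodule.add_mem_sup (Me.lam_mul hy) (Submodule.mem_sup_left ⟨z, hz, rfl⟩)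

include h in
theorem Fl_D {r : ℕ} {x : H} (hx : x ∈ Fl N jS jA jG e r) : D * x ∈ Fl N jS jA jG e (r + 1) := by
  obtain ⟨y, hy, z, hz, rfl⟩ := Submodule.mem_sup.1 hx
  rw [mul_add, h.D_mul hy]
  exact Submodule.add_mem_sup (zero_mem _) (Submodule.mem_sup_right ⟨z, hz, rfl⟩)

include h in
theorem Fl_G {r : ℕ} {x : H} (hx : x ∈ Fl N jS jA jG e r) : G * x ∈ Fl N jS jA jG e r :=
  Fl_map (LinearMap.mulLeft ℂ G) (fun _ => h.G_mul) (fun _ => mul_left_comm _ _ _)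
    (fun _ => mul_left_comm _ _ _) hx

variable (jA jG) in
/-- the vertical part of the operator of `G` -/
def Vt (d : J → ℕ) (s : Multiset H) : H →ₗ[ℂ] H := if d jA = 0 then hN.L G d s else 0

theorem Vt_zero (x : H) : Vt jA jG hN 0 0 x = G * x := by
  rw [Vt, if_pos (Pi.zero_apply jA), hN.L_deg0]

theorem Vt_G0 {d : J → ℕ} {s : Multiset H} (hd : d jG = 0) (h0 : d ≠ 0 ∨ s ≠ 0) :
    Vt jA jG hN d s = 0 := by
  rw [Vt, hN.L_h hd h0, ite_self]

include h in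
theorem Vt_M {d : J → ℕ} {s : Multiset H} (hS : d jS = 0) (hs : N.In s) {m : H} (hm : m ∈ M) :
    Vt jA jG hN d s m ∈ M := by
  unfold Vt
  split_ifs with hA
  · exact h.keep0 hN (hN.wt_h _) hS hA hs hm
  · exact zero_mem _

include h in
theorem Vt_Fl {r : ℕ} {d : J → ℕ} {s : Multiset H} (hS : d jS = 0) (hs : N.In s) {x : H}
    (hx : x ∈ Fl N jS jA jG e r) : Vt jA jG hN d s x ∈ Fl N jS jA jG e r := by
  unfold Vt
  split_ifs with hA
  · exact Fl_map _ (fun _ => h.keep0 hN (hN.wt_h _) hS hA hs) (hN.L_mul_h hS _ _)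
      (hN.L_mul_h hA _ _) hx
  · exact zero_mem _

theorem Vt_wt (d : J → ℕ) {s : Multiset H} (hs : N.In s) : Vt jA jG hN d s G ∈ N.A := by
  unfold Vt
  split_ifs with hA
  · exact hN.L_mem (hN.wt_h _) d hs (hN.wt_h _)
  · exact zero_mem _

/-- `D` acts classically in degree zero -/
theorem L_D0 {d : J → ℕ} (hA : d jA = 0) (s : Multiset H) (x : H) :
    hN.L D d s x = D * x ∨ hN.L D d s x = 0 := by
  by_cases h0 : d ≠ 0 ∨ s ≠ 0
  · rw [hN.L_h hA h0]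
    exact Or.inr rfl
  · rw [not_or, not_not, not_not] at h0
    rw [h0.1, h0.2, hN.L_deg0]
    exact Or.inl rfl

theorem L_DG (d : J → ℕ) (s : Multiset H) (x : H) :
    (d jA : ℂ) • hN.L G d s x = (d jG : ℂ) • hN.L D d s x := by
  rw [← LinearMap.smul_apply, ← LinearMap.smul_apply, ← hN.L_div, ← hN.L_div, hN.L_cons]

section Step

variable {k r : ℕ} (hk : k ≠ 0)
  (lo : ∀ a ∈ N.A, ∀ (d : J → ℕ) (s : Multiset H), d jS = 0 → d jA < k → N.In s →
    ∀ m ∈ Me (N.h jS) (N.h jG) e, hN.L a d s m ∈ Me (N.h jS) (N.h jG) e)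
  (cl : ∀ (d : J → ℕ) (s : Multiset H), d jS = 0 → d jA ≤ k → N.In s →
    ∀ m ∈ Me (N.h jS) (N.h jG) e, hN.L (N.h jA) d s m ∈ Fl N jS jA jG e r)
  {Q : Type} [AddCommGroup Q] [Module ℂ Q] (π : H →ₗ[ℂ] Q)
  (hπ : ∀ x ∈ Fl N jS jA jG e (r + 1), π x = 0)

include hk cl in
theorem cl' {a : H} (ha : a ∈ N.A) {d : J → ℕ} {s : Multiset H} (hS : d jS = 0) (hA : d jA = k)
    (hs : N.In s) {m : H} (hm : m ∈ M) : hN.L a d s m ∈ Fl N jS jA jG e r := by
  have h1 := cl d (a ::ₘ s) hS hA.le (hs.cons ha) m hm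
  rw [hN.L_cons, hN.L_div, hA, LinearMap.smul_apply] at h1
  exact (Submodule.smul_mem_iff _ (Nat.cast_ne_zero.2 hk)).1 h1

include h hk lo cl hπ in
theorem idA {d : J → ℕ} {s : Multiset H} (hS : d jS = 0) (hA : d jA = k) (hs : N.In s) {m : H}
    (hm : m ∈ M) :
    (Sm d s fun d₁ s₁ d₂ s₂ => π (hN.L D d₂ s₂ (Vt jA jG hN d₁ s₁ m))) =
      Sm d s fun d₁ s₁ d₂ s₂ => π (Vt jA jG hN d₂ s₂ (hN.L D d₁ s₁ m)) := by
  have h0 := congrArg π (hN.comm D G d s m)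
  rw [Sm_map, Sm_map] at h0
  refine Eq.trans (Sm_congr fun d₁ s₁ d₂ s₂ h1 h2 => ?_) (h0.trans
    (Sm_congr fun d₁ s₁ d₂ s₂ h1 h2 => ?_))
  all_goals
    have hA' : d₁ jA + d₂ jA = k := by rw [← hA, ← h1, Pi.add_apply]
    have hS1 := hN.deg_left h1 hS
    have hS2 := hN.deg_right h1 hS
    have hs1 := hs.left h2
    have hs2 := hs.right h2
    unfold Vt
    split_ifs with hv
  · rfl
  · rw [LinearMap.zero_apply, map_zero, map_zero]
    refine (hπ _ ?_).symm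
    by_cases h3 : d₁ jA = k
    · rcases L_D0 hN (show d₂ jA = 0 by omega) s₂ (hN.L G d₁ s₁ m) with h4 | h4 <;> rw [h4]
      · exact h.Fl_D (cl' hN hk cl (hN.wt_h _) hS1 h3 hs1 hm)
      · exact zero_mem _
    · exact M_le (lo _ (hN.wt_h _) _ _ hS2 (by omega) hs2 _
        (lo _ (hN.wt_h _) _ _ hS1 (by omega) hs1 _ hm))
  · rfl
  · rw [LinearMap.zero_apply, map_zero]
    refine hπ _ ?_
    by_cases h3 : d₂ jA = k
    · rcases L_D0 hN (show d₁ jA = 0 by omega) s₁ m with h4 | h4 <;> rw [h4]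
      · rw [h.D_mul hm, map_zero]
        exact zero_mem _
      · rw [map_zero]
        exact zero_mem _
    · exact M_le (lo _ (hN.wt_h _) _ _ hS2 (by omega) hs2 _
        (lo _ (hN.wt_h _) _ _ hS1 (by omega) hs1 _ hm))

include hk lo hπ in
theorem idB {d : J → ℕ} {s : Multiset H} (hS : d jS = 0) (hA : d jA = k) (hs : N.In s) :
    (Sm d s fun d₁ s₁ d₂ s₂ => (d₂ jG : ℂ) • π (hN.L D d₂ s₂ (Vt jA jG hN d₁ s₁ e))) +
      (Sm d s fun d₁ s₁ d₂ s₂ => (d₁ jG : ℂ) • π (Vt jA jG hN d₂ s₂ (hN.L D d₁ s₁ e))) =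
      Sm d s fun d₁ s₁ d₂ s₂ => π (hN.L D d₂ (Vt jA jG hN d₁ s₁ G ::ₘ s₂) e) := by
  have h0 := congrArg (fun x => (k : ℂ) • π x) (hN.assoc G G d s e)
  simp only [Sm_map π, Sm_smul] at h0
  rw [← Sm_add]
  refine Eq.trans (Sm_congr fun d₁ s₁ d₂ s₂ h1 h2 => ?_) (h0.trans
    (Sm_congr fun d₁ s₁ d₂ s₂ h1 h2 => ?_))
  all_goals
    have hA' : d₁ jA + d₂ jA = k := by rw [← hA, ← h1, Pi.add_apply]
    have hS1 := hN.deg_left h1 hS
    have hS2 := hN.deg_right h1 hS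
    have hs1 := hs.left h2
    have hs2 := hs.right h2
    unfold Vt
  · by_cases h3 : d₁ jA = 0
    · rw [if_pos h3, if_neg (by omega), LinearMap.zero_apply, map_zero, smul_zero, add_zero,
        ← map_smul π, ← map_smul π, ← L_DG hN (jA := jA), show d₂ jA = k by omega]
    · rw [if_neg h3, LinearMap.zero_apply, map_zero, map_zero, smul_zero, zero_add]
      by_cases h4 : d₂ jA = 0
      · rw [if_pos h4, ← map_smul π, ← map_smul π, ← map_smul (hN.L G d₂ s₂),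
          ← map_smul (hN.L G d₂ s₂), ← L_DG hN (jA := jA), show d₁ jA = k by omega]
      · rw [if_neg h4, LinearMap.zero_apply, map_zero, smul_zero, hπ, smul_zero]
        exact M_le (lo _ (hN.wt_h _) _ _ hS2 (by omega) hs2 _
          (lo _ (hN.wt_h _) _ _ hS1 (by omega) hs1 _ Me.e_mem))
  · by_cases h3 : d₁ jA = 0
    · rw [if_pos h3, hN.L_cons, hN.L_div, LinearMap.smul_apply, map_smul, show d₂ jA = k by omega]
    · rw [if_neg h3, LinearMap.zero_apply, hN.L_cons, hN.L_zero, LinearMap.zero_apply, map_zero,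
        hπ, smul_zero]
      exact M_le (lo _ (hN.L_mem (hN.wt_h _) _ hs1 (hN.wt_h _)) _ _ hS2 (by omega) hs2 _ Me.e_mem)

include h cl hπ in
theorem sq_ins {d : J → ℕ} {s : Multiset H} (hS : d jS = 0) (hA : d jA ≤ k) (hs : N.In s) :
    π (hN.L D d ((G * G) ::ₘ s) e) = 0 := by
  rw [hN.L_cons, h.sq, hN.L_h_mul hS, hN.L_cons]
  exact hπ _ (Fl_lam (cl _ _ hS hA (hs.cons (hN.wt_h _)) _ Me.e_mem))

include cl hπ in
theorem pi_dec {d : J → ℕ} {s : Multiset H} (hS : d jS = 0) (hA : d jA ≤ k) (hs : N.In s)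
    (α β : ℂ) {z : H} (hz : z ∈ M) :
    π (hN.L D d s (α • e + β • (G * e) + lam * z)) =
      α • π (hN.L D d s e) + β • π (hN.L D d s (G * e)) := by
  simp only [map_add, map_smul]
  rw [hN.L_mul_h hS, hπ _ (Fl_lam (cl _ _ hS hA hs _ hz)), add_zero]

variable {i : ℕ}
  (ih : ∀ (d : J → ℕ) (s : Multiset H), d jS = 0 → d jA ≤ k → N.In s → d jG < i →
    ∀ m ∈ Me (N.h jS) (N.h jG) e, hN.L (N.h jA) d s m ∈ Fl N jS jA jG e (r + 1))

include h hk lo cl hπ ih in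
/-- order `i` -/
theorem ord0 {d : J → ℕ} {s : Multiset H} (hS : d jS = 0) (hA : d jA ≤ k) (hs : N.In s)
    (hG : d jG = i) : π (hN.L D d s (G * e)) = 0 ∧ π (G * hN.L D d s e) = 0 := by
  rcases hA.lt_or_eq with hA' | hA'
  · exact ⟨hπ _ (M_le (lo _ (hN.wt_h _) _ _ hS hA' hs _ Me.Ge_mem)),
      hπ _ (M_le (h.G_mul (lo _ (hN.wt_h _) _ _ hS hA' hs _ Me.e_mem)))⟩
  have t1 : ∀ d₁ s₁ d₂ s₂, d₁ + d₂ = d → s₁ + s₂ = s → d₁ ≠ 0 ∨ s₁ ≠ 0 →
      π (hN.L D d₂ s₂ (Vt jA jG hN d₁ s₁ e)) = 0 := by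
    intro d₁ s₁ d₂ s₂ h1 h2 h3
    have e1 := congrFun h1 jA
    have e2 := congrFun h1 jG
    rw [Pi.add_apply] at e1 e2
    by_cases h4 : d₁ jG = 0
    · rw [Vt_G0 hN h4 h3, LinearMap.zero_apply, map_zero, map_zero]
    · exact hπ _ (ih _ _ (hN.deg_right h1 hS) (by omega) (hs.right h2) (by omega) _
        (h.Vt_M hN (hN.deg_left h1 hS) (hs.left h2) Me.e_mem))
  have t2 : ∀ d₁ s₁ d₂ s₂, d₁ + d₂ = d → s₁ + s₂ = s → d₂ ≠ 0 ∨ s₂ ≠ 0 →
      π (Vt jA jG hN d₂ s₂ (hN.L D d₁ s₁ e)) = 0 := by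
    intro d₁ s₁ d₂ s₂ h1 h2 h3
    have e1 := congrFun h1 jA
    have e2 := congrFun h1 jG
    rw [Pi.add_apply] at e1 e2
    by_cases h4 : d₂ jG = 0
    · rw [Vt_G0 hN h4 h3, LinearMap.zero_apply, map_zero]
    · exact hπ _ (h.Vt_Fl hN (hN.deg_right h1 hS) (hs.right h2)
        (ih _ _ (hN.deg_left h1 hS) (by omega) (hs.left h2) (by omega) _ Me.e_mem))
  have a1 := h.idA hN hk lo cl π hπ hS hA' hs Me.e_mem
  rw [Sm_left t1, Sm_right t2, Vt_zero, Vt_zero] at a1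
  have a3 := idB hN hk lo π hπ hS hA' hs
  rw [Sm_left fun d₁ s₁ d₂ s₂ h1 h2 h3 => by rw [t1 _ _ _ _ h1 h2 h3, smul_zero],
    Sm_right fun d₁ s₁ d₂ s₂ h1 h2 h3 => by rw [t2 _ _ _ _ h1 h2 h3, smul_zero], Sm_left,
    Vt_zero, Vt_zero, Vt_zero, h.sq_ins hN cl π hπ hS hA hs, ← a1, ← add_smul] at a3
  · have a4 : π (hN.L D d s (G * e)) = 0 := by
      by_cases h0 : d jG = 0
      · exact hπ _ (M_le (h.fin d _ hS h0 (hs.cons (hN.wt_h _)) Multiset.cons_ne_zero))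
      · refine (smul_eq_zero.1 a3).resolve_left ?_
        rw [← Nat.cast_add, Nat.cast_eq_zero]
        omega
    exact ⟨a4, a1 ▸ a4⟩
  · intro d₁ s₁ d₂ s₂ h1 h2 h3
    have e1 := congrFun h1 jA
    have e2 := congrFun h1 jG
    rw [Pi.add_apply] at e1 e2
    by_cases h4 : d₁ jG = 0
    · rw [Vt_G0 hN h4 h3, LinearMap.zero_apply, hN.L_cons, hN.L_zero, LinearMap.zero_apply,
        map_zero]
    · exact hπ _ (ih _ _ (hN.deg_right h1 hS) (by omega)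
        ((hs.right h2).cons (Vt_wt hN _ (hs.left h2))) (by omega) _ Me.e_mem)

include h hk lo cl hπ ih in
/-- order `i + 1`, after multiplication by `G` -/
theorem ord1 {d : J → ℕ} {s : Multiset H} (hS : d jS = 0) (hA : d jA = k) (hs : N.In s)
    (hG : d jG = i + 1) : π (G * hN.L D d s (G * e)) = 0 := by
  let π' : H →ₗ[ℂ] Q := π ∘ₗ LinearMap.mulLeft ℂ G
  have e' : ∀ x, π' x = π (G * x) := fun _ => rfl
  have hπ' : ∀ x ∈ Fl N jS jA jG e (r + 1), π' x = 0 := fun x hx => hπ _ (h.Fl_G hx)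
  have gg : ∀ x ∈ Fl N jS jA jG e r, π' (G * x) = 0 := fun x hx => by
    rw [e', ← mul_assoc, h.sq, mul_assoc]
    exact hπ _ (Fl_lam (h.Fl_G hx))
  have t0 : ∀ (d₂ : J → ℕ) (s₂ : Multiset H), d₂ jS = 0 → d₂ jA ≤ k → N.In s₂ → d₂ jG ≤ i →
      ∀ m ∈ M, π' (hN.L D d₂ s₂ m) = 0 := by
    intro d₂ s₂ h1 h2 h3 h4 m hm
    rcases h4.lt_or_eq with h4 | h4
    · exact hπ' _ (ih _ _ h1 h2 h3 h4 _ hm)
    · obtain ⟨α, β, z, hz, rfl⟩ := Me.dec hm
      rw [pi_dec hN cl π' hπ' h1 h2 h3 α β hz, (h.ord0 hN hk lo cl π' hπ' ih h1 h2 h3 h4).1, e',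
        (h.ord0 hN hk lo cl π hπ ih h1 h2 h3 h4).2, smul_zero, smul_zero, add_zero]
  have t1 : ∀ d₁ s₁ d₂ s₂, d₁ + d₂ = d → s₁ + s₂ = s → d₁ ≠ 0 ∨ s₁ ≠ 0 →
      π' (hN.L D d₂ s₂ (Vt jA jG hN d₁ s₁ e)) = 0 := by
    intro d₁ s₁ d₂ s₂ h1 h2 h3
    have e1 := congrFun h1 jA
    have e2 := congrFun h1 jG
    rw [Pi.add_apply] at e1 e2
    by_cases h4 : d₁ jG = 0
    · rw [Vt_G0 hN h4 h3, LinearMap.zero_apply, map_zero, map_zero]
    · exact t0 _ _ (hN.deg_right h1 hS) (by omega) (hs.right h2) (by omega) _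
        (h.Vt_M hN (hN.deg_left h1 hS) (hs.left h2) Me.e_mem)
  have a1 := h.idA hN hk lo cl π' hπ' hS hA hs Me.e_mem
  rw [Sm_left t1, Vt_zero] at a1
  have a3 := idB hN hk lo π' hπ' hS hA hs
  rw [Sm_left fun d₁ s₁ d₂ s₂ h1 h2 h3 => by rw [t1 _ _ _ _ h1 h2 h3, smul_zero],
    Sm_congr (Ψ := fun d₁ s₁ d₂ s₂ => (i : ℂ) • π' (Vt jA jG hN d₂ s₂ (hN.L D d₁ s₁ e))),
    ← Sm_smul, ← a1, Sm_left, Vt_zero, Vt_zero, h.sq_ins hN cl π' hπ' hS hA.le hs, ← add_smul] at a3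
  · refine (smul_eq_zero.1 a3).resolve_left ?_
    rw [← Nat.cast_add, Nat.cast_eq_zero]
    omega
  · intro d₁ s₁ d₂ s₂ h1 h2 h3
    have e1 := congrFun h1 jA
    have e2 := congrFun h1 jG
    rw [Pi.add_apply] at e1 e2
    by_cases h4 : d₁ jG = 0
    · rw [Vt_G0 hN h4 h3, LinearMap.zero_apply, hN.L_cons, hN.L_zero, LinearMap.zero_apply,
        map_zero]
    · exact t0 _ _ (hN.deg_right h1 hS) (by omega)
        ((hs.right h2).cons (Vt_wt hN _ (hs.left h2))) (by omega) _ Me.e_mem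
  · intro d₁ s₁ d₂ s₂ h1 h2
    have e1 := congrFun h1 jA
    have e2 := congrFun h1 jG
    rw [Pi.add_apply] at e1 e2
    by_cases h4 : d₁ jG = i
    · rw [h4]
    suffices h5 : π' (Vt jA jG hN d₂ s₂ (hN.L D d₁ s₁ e)) = 0 by rw [h5, smul_zero, smul_zero]
    by_cases h6 : d₁ jG < i
    · exact hπ' _ (h.Vt_Fl hN (hN.deg_right h1 hS) (hs.right h2)
        (ih _ _ (hN.deg_left h1 hS) (by omega) (hs.left h2) h6 _ Me.e_mem))
    by_cases h7 : d₂ ≠ 0 ∨ s₂ ≠ 0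
    · rw [Vt_G0 hN (by omega) h7, LinearMap.zero_apply, map_zero]
    · rw [not_or, not_not, not_not] at h7
      rw [h7.1, h7.2, Vt_zero]
      exact gg _ (cl _ _ (hN.deg_left h1 hS) (by omega) (hs.left h2) _ Me.e_mem)

end Step

end LineHyp

end Crest.Agent.X262.Qn
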