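import Crest.Agent.X262.Qn.Line

/-!
# Row 262, road B (helper55): the theorem `gc_inv`

All operators of degree `0` for `λ` keep the span of the `λ ^ k e`, `λ ^ k G e`.
-/

set_option autoImplicit false
set_option linter.unusedSectionVars false

noncomputable section

namespace Crest.Agent.X262.Qn

open Crest.Agent.X262.Ult

variable {J H : Type} [Fintype J] [DecidableEq J] [CommRing H] [Algebra ℂ H]

namespace LineHyp

variable {N : Sy J H} {jS jA jG : J} {e : H} (hN : N.Ax) (h : LineHyp N jS jA jG e)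

local notation "lam" => N.h jS
local notation "G" => N.h jG
local notation "D" => N.h jA
local notation "M" => Me (N.h jS) (N.h jG) e

include h in
/-- the coefficients of `e` in the vertical operators of degree one -/
theorem exists_y : ∃ (y : (J → ℕ) → Multiset H → ℂ) (e₁ : J → ℕ), y e₁ 0 ≠ 0 ∧
    (∀ d s, ¬(d jS = 0 ∧ d jA = 0 ∧ d jG = 1 ∧ N.In s) → y d s = 0) ∧
    ∀ d s, d jS = 0 ∧ d jA = 0 ∧ d jG = 1 ∧ N.In s → ∃ t : ℂ, ∃ z ∈ M,
      hN.L G d s (G * e) = y d s • e + t • (G * e) + lam * z := by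
  obtain ⟨e₁, h1, h2, h3, y₀, t₀, hy₀, z₀, hz₀, h4⟩ := h.num
  have key : ∀ (d : J → ℕ) (s : Multiset H), ∃ y : ℂ, (d = e₁ ∧ s = 0 → y ≠ 0) ∧
      (¬(d jS = 0 ∧ d jA = 0 ∧ d jG = 1 ∧ N.In s) → y = 0) ∧
      (d jS = 0 ∧ d jA = 0 ∧ d jG = 1 ∧ N.In s → ∃ t : ℂ, ∃ z ∈ M,
        hN.L G d s (G * e) = y • e + t • (G * e) + lam * z) := by
    intro d s
    by_cases c1 : d = e₁ ∧ s = 0
    · obtain ⟨rfl, rfl⟩ := c1
      exact ⟨y₀, fun _ => hy₀, fun c => absurd ⟨h1, h2, h3, Sy.in_zero⟩ c,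
        fun _ => ⟨t₀, z₀, hz₀, h4⟩⟩
    by_cases c2 : d jS = 0 ∧ d jA = 0 ∧ d jG = 1 ∧ N.In s
    · obtain ⟨α, β, z, hz, h5⟩ := Me.dec (h.keep0 hN (hN.wt_h jG) c2.1 c2.2.1 c2.2.2.2 Me.Ge_mem)
      exact ⟨α, fun c => absurd c c1, fun c => absurd c2 c, fun _ => ⟨β, z, hz, h5⟩⟩
    · exact ⟨0, fun c => absurd c c1, fun _ => rfl, fun c => absurd c c2⟩
  choose y hy1 hy2 hy3 using key
  exact ⟨y, e₁, hy1 _ _ ⟨rfl, rfl⟩, hy2, hy3⟩

section Step

variable {k r : ℕ} (hk : k ≠ 0)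
  (lo : ∀ a ∈ N.A, ∀ (d : J → ℕ) (s : Multiset H), d jS = 0 → d jA < k → N.In s →
    ∀ m ∈ Me (N.h jS) (N.h jG) e, hN.L a d s m ∈ Me (N.h jS) (N.h jG) e)
  (cl : ∀ (d : J → ℕ) (s : Multiset H), d jS = 0 → d jA ≤ k → N.In s →
    ∀ m ∈ Me (N.h jS) (N.h jG) e, hN.L (N.h jA) d s m ∈ Fl N jS jA jG e r)

include h hk lo cl in
/-- order `i` -/
theorem ord2 {i : ℕ}
    (ih : ∀ (d : J → ℕ) (s : Multiset H), d jS = 0 → d jA ≤ k → N.In s → d jG < i →
      ∀ m ∈ Me (N.h jS) (N.h jG) e, hN.L (N.h jA) d s m ∈ Fl N jS jA jG e (r + 1))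
    {d : J → ℕ} {s : Multiset H} (hS : d jS = 0) (hA : d jA ≤ k) (hs : N.In s) (hG : d jG = i)
    {m : H} (hm : m ∈ M) : hN.L D d s m ∈ Fl N jS jA jG e (r + 1) := by
  classical
  rcases hA.lt_or_eq with hA' | hA'
  · exact M_le (lo _ (hN.wt_h _) _ _ hS hA' hs _ hm)
  let π := (Fl N jS jA jG e (r + 1)).mkQ
  have hπ' : ∀ x, π x = 0 ↔ x ∈ Fl N jS jA jG e (r + 1) := fun x =>
    Submodule.Quotient.mk_eq_zero _
  have hπ : ∀ x ∈ Fl N jS jA jG e (r + 1), π x = 0 := fun x hx => (hπ' x).2 hx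
  obtain ⟨y, e₁, y1, y2, y3⟩ := h.exists_y hN
  have key := dom (N := N) y
    (fun d₂ s₂ => if d₂ jS = 0 ∧ d₂ jA = k ∧ d₂ jG = i then π (hN.L D d₂ s₂ e) else 0) y1 ?_ s hs d
  · rw [if_pos ⟨hS, hA', hG⟩] at key
    obtain ⟨α, β, z, hz, rfl⟩ := Me.dec hm
    rw [← hπ', pi_dec hN cl π hπ hS hA hs α β hz, key,
      (h.ord0 hN hk lo cl π hπ ih hS hA hs hG).1, smul_zero, smul_zero, add_zero]
  clear hS hA hs hG hA' d s
  intro d s hs
  by_cases hd : d jS = 0 ∧ d jA = k ∧ d jG = i + 1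
  · obtain ⟨hS, hA, hG⟩ := hd
    have a1 := h.idA hN hk lo cl π hπ hS hA hs Me.Ge_mem
    refine Eq.trans (Sm_congr fun d₁ s₁ d₂ s₂ h1 h2 => ?_) (a1.trans
      (Sm_zero fun d₁ s₁ d₂ s₂ h1 h2 => ?_))
    all_goals
      have e1 := congrFun h1 jA
      have e2 := congrFun h1 jG
      rw [Pi.add_apply] at e1 e2
      have hS1 := hN.deg_left h1 hS
      have hS2 := hN.deg_right h1 hS
      have hs1 := hs.left h2
      have hs2 := hs.right h2
    · by_cases c1 : d₁ jA = 0 ∧ d₁ jG = 1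
      · obtain ⟨t, z, hz, h3⟩ := y3 d₁ s₁ ⟨hS1, c1.1, c1.2, hs1⟩
        rw [if_pos ⟨hS2, by omega, by omega⟩, Vt, if_pos c1.1, h3,
          pi_dec hN cl π hπ hS2 (by omega) hs2 _ _ hz,
          (h.ord0 hN hk lo cl π hπ ih hS2 (by omega) hs2 (by omega)).1, smul_zero, add_zero]
      rw [y2 d₁ s₁ fun c => c1 ⟨c.2.1, c.2.2.1⟩, zero_smul]
      refine (hπ _ ?_).symm
      by_cases c2 : d₁ jG = 0
      · by_cases c3 : d₁ ≠ 0 ∨ s₁ ≠ 0
        · rw [Vt_G0 hN c2 c3, LinearMap.zero_apply, map_zero]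
          exact zero_mem _
        · rw [not_or, not_not, not_not] at c3
          rw [c3.1, c3.2, Vt_zero, ← mul_assoc, h.sq, mul_assoc, hN.L_mul_h hS2]
          exact Fl_lam (cl _ _ hS2 (by omega) hs2 _ Me.Ge_mem)
      by_cases c4 : d₁ jA = 0
      · exact ih _ _ hS2 (by omega) hs2 (by omega) _ (h.Vt_M hN hS1 hs1 Me.Ge_mem)
      · rw [Vt, if_neg c4, LinearMap.zero_apply, map_zero]
        exact zero_mem _
    · by_cases c2 : d₂ jG = 0
      · by_cases c3 : d₂ ≠ 0 ∨ s₂ ≠ 0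
        · rw [Vt_G0 hN c2 c3, LinearMap.zero_apply, map_zero]
        · rw [not_or, not_not, not_not] at c3
          obtain ⟨rfl, rfl⟩ := c3
          rw [add_zero] at h1 h2
          rw [Vt_zero, h1, h2]
          exact h.ord1 hN hk lo cl π hπ ih hS hA hs hG
      refine hπ _ (h.Vt_Fl hN hS2 hs2 ?_)
      by_cases c5 : d₁ jG < i
      · exact ih _ _ hS1 (by omega) hs1 c5 _ Me.Ge_mem
      · exact (hπ' _).1 (h.ord0 hN hk lo cl π hπ ih hS1 (by omega) hs1 (by omega)).1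
  · refine Sm_zero fun d₁ s₁ d₂ s₂ h1 _ => ?_
    have e0 := congrFun h1 jS
    have e1 := congrFun h1 jA
    have e2 := congrFun h1 jG
    rw [Pi.add_apply] at e0 e1 e2
    split_ifs with c1
    · rw [y2 d₁ s₁ fun c => hd ⟨by omega, by omega, by omega⟩, zero_smul]
    · exact smul_zero _

include h hk lo cl in
theorem stepI (d : J → ℕ) (s : Multiset H) (hS : d jS = 0) (hA : d jA ≤ k) (hs : N.In s)
    (m : H) (hm : m ∈ M) : hN.L D d s m ∈ Fl N jS jA jG e (r + 1) := by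
  have key : ∀ (i : ℕ) (d : J → ℕ) (s : Multiset H), d jS = 0 → d jA ≤ k → N.In s → d jG < i →
      ∀ m ∈ M, hN.L D d s m ∈ Fl N jS jA jG e (r + 1) := by
    intro i
    induction i with
    | zero => exact fun _ _ _ _ _ c => absurd c (Nat.not_lt_zero _)
    | succ i ih =>
      intro d s hS hA hs hG m hm
      rcases (Nat.lt_succ_iff.1 hG).lt_or_eq with c | c
      · exact ih d s hS hA hs c m hm
      · exact h.ord2 hN hk lo cl ih hS hA hs c hm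
  exact key _ d s hS hA hs (Nat.lt_succ_self _) m hm

include h hk lo in
theorem stepR (r : ℕ) : ∀ (d : J → ℕ) (s : Multiset H), d jS = 0 → d jA ≤ k → N.In s →
    ∀ m ∈ M, hN.L D d s m ∈ Fl N jS jA jG e r := by
  induction r with
  | zero => exact fun _ _ _ _ _ _ _ => Submodule.mem_sup_right Submodule.mem_top
  | succ r ih => exact h.stepI hN hk lo ih

end Step

include h in
theorem line' (k : ℕ) : ∀ a ∈ N.A, ∀ (d : J → ℕ) (s : Multiset H), d jS = 0 → d jA < k → N.In s →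
    ∀ m ∈ M, hN.L a d s m ∈ M := by
  induction k with
  | zero => exact fun _ _ _ _ _ c => absurd c (Nat.not_lt_zero _)
  | succ k ih =>
    intro a ha d s hS hA hs m hm
    rcases (Nat.lt_succ_iff.1 hA).lt_or_eq with c | c
    · exact ih a ha d s hS c hs m hm
    by_cases hk : k = 0
    · exact h.keep0 hN ha hS (c.trans hk) hs hm
    obtain ⟨r, hr⟩ := Pw.nil h.nS h.nA
    obtain ⟨y, hy, z, hz, h1⟩ :=
      Submodule.mem_sup.1 (cl' hN hk (h.stepR hN hk ih r) ha hS c hs hm)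
    rw [← h1, hr z hz, add_zero]
    exact hy

include hN h in
/-- **the span is invariant** -/
theorem line {d : J → ℕ} {s : Multiset H} (hS : d jS = 0) (hs : N.In s) (h0 : s ≠ 0) {m : H}
    (hm : m ∈ M) : N.op d (m ::ₘ s) ∈ M := by
  obtain ⟨a, ha⟩ := Multiset.exists_mem_of_ne_zero h0
  obtain ⟨s', rfl⟩ := Multiset.exists_cons_of_mem ha
  exact h.line' hN _ a (hs a ha) d s' hS (Nat.lt_succ_self _)
    (fun x hx => hs x (Multiset.mem_cons_of_mem hx)) m hm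

end LineHyp

/-- the hypotheses of `gc_inv` -/
structure GcHyp (Q : Hyc ℂ J H) (A : Submodule ℂ H) (h : J → H) (jA jG jS : J) (e : H) :
    Prop where
  dv : ∀ j, Q.IsDiv (h j) fun d => (d j : ℂ)
  hA : ∀ j, h j ∈ A
  one : (1 : H) ∈ A
  opA : ∀ d l, Gc84.In A l → 2 ≤ Multiset.card l → Q.op d l ∈ A
  nilD : IsNilpotent (h jA)
  nilS : IsNilpotent (h jS)
  GG : h jG * h jG = h jS * h jG
  DE : h jA * e = 0
  vert : ∀ (d : J →₀ ℕ) (l : Multiset H), d jA = 0 → d jS = 0 → Gc84.In A l → l ≠ 0 →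
    ∀ x ∈ A, Q.op d ((e * x) ::ₘ l) = e * Q.op d (x ::ₘ l)
  kill : ∀ a ∈ A, e * a ∈ Gc84.Me ℂ (h jS) (h jG) e
  num : ∃ d : J →₀ ℕ, d jA = 0 ∧ d jS = 0 ∧ d jG = 1 ∧ ∃ y t : ℂ, y ≠ 0 ∧
    ∃ z ∈ Gc84.Me ℂ (h jS) (h jG) e,
      Q.op d ((h jG * e) ::ₘ h jG ::ₘ 0) = y • e + t • (h jG * e) + h jS * z
  fin : ∀ (d : J →₀ ℕ) (l : Multiset H), d jG = 0 → d jS = 0 → Gc84.In A l → l ≠ 0 →
    Q.op d ((h jG * e) ::ₘ l) ∈ Gc84.Me ℂ (h jS) (h jG) e

/-- **(GC)** all operators of degree `0` for `λ` keep the span of the `λ ^ k e`, `λ ^ k G e` -/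
theorem gc_inv {Q : Hyc ℂ J H} {A : Submodule ℂ H} {h : J → H} {jA jG jS : J} {e : H}
    (hy : GcHyp Q A h jA jG jS e) (d : J →₀ ℕ) (l : Multiset H) (hS : d jS = 0)
    (hl : Gc84.In A l) (h0 : l ≠ 0) {m : H} (hm : m ∈ Gc84.Me ℂ (h jS) (h jG) e) :
    Q.op d (m ::ₘ l) ∈ Gc84.Me ℂ (h jS) (h jG) e := by
  let N : Sy J H := ⟨Q, h, A⟩
  have hN : N.Ax := ⟨hy.dv, hy.hA, hy.one, hy.opA⟩
  have hL : LineHyp N jS jA jG e :=
    { nS := hy.nilS
      nA := hy.nilD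
      sq := hy.GG
      Ae := hy.DE
      vert := fun d s h1 h2 h3 h4 => hy.vert (fs d) s h2 h1 h3 h4
      kill := hy.kill
      num := by
        obtain ⟨d, h1, h2, h3, y, t, h4, z, h5, h6⟩ := hy.num
        exact ⟨d, h2, h1, h3, y, t, h4, z, h5, by rw [← fs_coe d] at h6; exact h6⟩
      fin := fun d s h1 h2 h3 h4 => hy.fin (fs d) s h2 h1 h3 h4 }
  have := hL.line hN (d := d) hS hl h0 hm
  rwa [Sy.op, fs_coe] at this

end Crest.Agent.X262.Qn
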