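import Crest.Agent.X262.Qn.Bas
import Crest.Agent.X262.Gc84.Defs

/-!
# Row 262, road B (helper55): the operators `L a d s` of a hypercommutative algebra
-/

set_option autoImplicit false
set_option linter.unusedSectionVars false

noncomputable section

namespace Crest.Agent.X262.Qn

open Crest.Agent.X262.Ult

/-- a hypercommutative algebra with divisor classes and a subspace of insertions -/
structure Sy (J H : Type) [DecidableEq J] [CommRing H] [Algebra ℂ H] where
  /-- the operations -/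
  Q : Hyc ℂ J H
  /-- the divisor classes -/
  h : J → H
  /-- the insertions -/
  A : Submodule ℂ H

variable {J H : Type} [Fintype J] [DecidableEq J] [CommRing H] [Algebra ℂ H]

/-- a function on a finite type as a finitely supported function -/
abbrev fs (d : J → ℕ) : J →₀ ℕ := Finsupp.equivFunOnFinite.symm d

theorem fs_zero : fs (0 : J → ℕ) = 0 := by ext; rfl

theorem fs_coe (d : J →₀ ℕ) : fs ⇑d = d := by ext; rfl

theorem sum_anti_Iic {Q : Type} [AddCommMonoid Q] (d : J → ℕ) (f : (J →₀ ℕ) → (J →₀ ℕ) → Q) :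
    ∑ e ∈ Finset.HasAntidiagonal.antidiagonal (fs d), f e.1 e.2 =
      ∑ e ∈ Finset.Iic d, f (fs e) (fs (d - e)) := by
  refine Finset.sum_bij' (fun e _ => ⇑e.1) (fun e _ => (fs e, fs (d - e))) ?_ ?_ ?_ ?_ ?_
  · intro e he
    refine Finset.mem_Iic.2 fun j => ?_
    have := DFunLike.congr_fun (Finset.HasAntidiagonal.mem_antidiagonal.1 he) j
    exact Nat.le.intro this
  · intro e he
    refine Finset.HasAntidiagonal.mem_antidiagonal.2 ?_
    ext j
    exact congrFun (add_tsub_cancel_of_le (Finset.mem_Iic.1 he)) j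
  · intro e he
    refine Prod.ext (fs_coe _) ?_
    ext j
    have : e.1 j + e.2 j = d j := DFunLike.congr_fun (Finset.HasAntidiagonal.mem_antidiagonal.1 he) j
    change d j - e.1 j = e.2 j
    omega
  · intro e _
    rfl
  · intro e he
    congr 1
    · exact (fs_coe _).symm
    · ext j
      have : e.1 j + e.2 j = d j := DFunLike.congr_fun (Finset.HasAntidiagonal.mem_antidiagonal.1 he) j
      change e.2 j = d j - e.1 j
      omega

namespace Sy

variable (N : Sy J H)

/-- the operation -/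
def op (d : J → ℕ) (s : Multiset H) : H := N.Q.op (fs d) s

/-- all insertions are allowed -/
def In (s : Multiset H) : Prop := ∀ a ∈ s, a ∈ N.A

/-- the axioms -/
structure Ax : Prop where
  dv : ∀ j, N.Q.IsDiv (N.h j) fun d => (d j : ℂ)
  wt_h : ∀ j, N.h j ∈ N.A
  wt_one : (1 : H) ∈ N.A
  opA : ∀ d l, N.In l → 2 ≤ Multiset.card l → N.Q.op d l ∈ N.A

variable {N}

theorem In.cons {a : H} {s : Multiset H} (ha : a ∈ N.A) (hs : N.In s) : N.In (a ::ₘ s) :=
  fun x hx => (Multiset.mem_cons.1 hx).elim (fun h => h ▸ ha) (hs x)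

theorem In.left {s₁ s₂ s : Multiset H} (hs : N.In s) (h : s₁ + s₂ = s) : N.In s₁ :=
  fun x hx => hs x (h ▸ Multiset.mem_add.2 (Or.inl hx))

theorem In.right {s₁ s₂ s : Multiset H} (hs : N.In s) (h : s₁ + s₂ = s) : N.In s₂ :=
  fun x hx => hs x (h ▸ Multiset.mem_add.2 (Or.inr hx))

theorem in_zero : N.In 0 := fun _ hx => absurd hx (Multiset.notMem_zero _)

namespace Ax

variable (hN : N.Ax)

/-- the operator `x ↦ op d (x, a, s)` -/
def L (_ : N.Ax) (a : H) (d : J → ℕ) (s : Multiset H) : H →ₗ[ℂ] H := N.Q.opl (fs d) (a ::ₘ s)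

theorem L_apply (a : H) (d : J → ℕ) (s : Multiset H) (x : H) :
    hN.L a d s x = N.op d (x ::ₘ a ::ₘ s) := rfl

theorem L_symm (a : H) (d : J → ℕ) (s : Multiset H) (x : H) : hN.L a d s x = hN.L x d s a := by
  rw [L_apply, L_apply, Multiset.cons_swap]

theorem L_cons (a b : H) (d : J → ℕ) (s : Multiset H) :
    hN.L a d (b ::ₘ s) = hN.L b d (a ::ₘ s) := by
  ext x
  rw [L_apply, L_apply, Multiset.cons_swap a b]

theorem L_zero (d : J → ℕ) (s : Multiset H) : hN.L 0 d s = 0 := by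
  ext x
  rw [L_symm, map_zero, LinearMap.zero_apply]

theorem L_deg0 (a x : H) : hN.L a 0 0 x = a * x := by
  rw [L_apply, op, fs_zero, N.Q.cl, mul_comm]

theorem L_deg0' (a : H) {s : Multiset H} (hs : s ≠ 0) : hN.L a 0 s = 0 := by
  ext x
  rw [L_apply, op, fs_zero]
  refine N.Q.zero3 _ ?_
  have := Multiset.card_pos.2 hs
  simp only [Multiset.card_cons]
  omega

theorem L_div (a : H) (d : J → ℕ) (j : J) (s : Multiset H) :
    hN.L a d (N.h j ::ₘ s) = (d j : ℂ) • hN.L a d s := by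
  ext x
  rw [LinearMap.smul_apply, L_apply, L_apply, Multiset.cons_swap a, Multiset.cons_swap x]
  exact hN.dv j (fs d) _ (by simp)

/-- a factor class of degree zero acts classically -/
theorem L_h {d : J → ℕ} {j : J} (hd : d j = 0) {s : Multiset H} (h : d ≠ 0 ∨ s ≠ 0) :
    hN.L (N.h j) d s = 0 := by
  by_cases h0 : d = 0
  · subst h0
    exact hN.L_deg0' _ (h.resolve_left fun h => h rfl)
  obtain ⟨j', hj'⟩ := Function.ne_iff.1 h0
  have h1 := hN.L_div (N.h j) d j' s
  rw [hN.L_cons, hN.L_div, hd, Nat.cast_zero, zero_smul] at h1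
  exact (smul_eq_zero.1 h1.symm).resolve_left (Nat.cast_ne_zero.2 hj')

/-- associativity -/
theorem assoc (a b : H) (d : J → ℕ) (s : Multiset H) (x : H) :
    (Sm d s fun d₁ s₁ d₂ s₂ => hN.L a d₂ s₂ (hN.L b d₁ s₁ x)) =
      Sm d s fun d₁ s₁ d₂ s₂ => hN.L (hN.L b d₁ s₁ a) d₂ s₂ x := by
  have h1 := N.Q.wdvv (fs d) s b x a
  rw [sum_anti_Iic d fun e f => ((Multiset.antidiagonal s).map fun q =>
      N.Q.op f (N.Q.op e (b ::ₘ x ::ₘ q.1) ::ₘ a ::ₘ q.2)).sum,
    sum_anti_Iic d fun e f => ((Multiset.antidiagonal s).map fun q =>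
      N.Q.op f (N.Q.op e (b ::ₘ a ::ₘ q.1) ::ₘ x ::ₘ q.2)).sum] at h1
  refine Eq.trans ?_ (h1.trans ?_)
  · refine Finset.sum_congr rfl fun e _ => congrArg _ (Multiset.map_congr rfl fun q _ => ?_)
    rw [Multiset.cons_swap b x]
    rfl
  · refine Finset.sum_congr rfl fun e _ => congrArg _ (Multiset.map_congr rfl fun q _ => ?_)
    rw [Multiset.cons_swap b a, Multiset.cons_swap _ x]
    rfl

/-- commutativity -/
theorem comm (a b : H) (d : J → ℕ) (s : Multiset H) (x : H) :
    (Sm d s fun d₁ s₁ d₂ s₂ => hN.L a d₂ s₂ (hN.L b d₁ s₁ x)) =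
      Sm d s fun d₁ s₁ d₂ s₂ => hN.L b d₂ s₂ (hN.L a d₁ s₁ x) := by
  rw [hN.assoc, hN.assoc]
  exact Sm_congr fun d₁ s₁ d₂ s₂ _ _ => by rw [hN.L_symm b]

include hN in
theorem deg_left {d₁ d₂ d : J → ℕ} {j : J} (h : d₁ + d₂ = d) (hd : d j = 0) : d₁ j = 0 := by
  have := congrFun h j
  rw [Pi.add_apply] at this
  omega

include hN in
theorem deg_right {d₁ d₂ d : J → ℕ} {j : J} (h : d₁ + d₂ = d) (hd : d j = 0) : d₂ j = 0 := by
  have := congrFun h j
  rw [Pi.add_apply] at this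
  omega

/-- the operators of degree zero on a factor are linear over its class -/
theorem L_mul_h {d : J → ℕ} {j : J} (hd : d j = 0) (a : H) (s : Multiset H) (x : H) :
    hN.L a d s (N.h j * x) = N.h j * hN.L a d s x := by
  have h := hN.comm a (N.h j) d s x
  rw [Sm_left, Sm_right, hN.L_deg0, hN.L_deg0] at h
  · exact h
  · intro d₁ s₁ d₂ s₂ h1 _ h3
    rw [hN.L_h (hN.deg_right h1 hd) h3, LinearMap.zero_apply]
  · intro d₁ s₁ d₂ s₂ h1 _ h3
    rw [hN.L_h (hN.deg_left h1 hd) h3, LinearMap.zero_apply, map_zero]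

theorem L_h_mul {d : J → ℕ} {j : J} (hd : d j = 0) (a : H) (s : Multiset H) (x : H) :
    hN.L (N.h j * a) d s x = N.h j * hN.L a d s x := by
  rw [hN.L_symm, hN.L_mul_h hd, hN.L_symm]

theorem L_mul_pow {d : J → ℕ} {j : J} (hd : d j = 0) (a : H) (s : Multiset H) (k : ℕ) (x : H) :
    hN.L a d s (N.h j ^ k * x) = N.h j ^ k * hN.L a d s x := by
  induction k with
  | zero => simp
  | succ k ih => rw [pow_succ', mul_assoc, hN.L_mul_h hd, ih, mul_assoc]

theorem L_mem {a : H} (ha : a ∈ N.A) (d : J → ℕ) {s : Multiset H} (hs : N.In s) {x : H}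
    (hx : x ∈ N.A) : hN.L a d s x ∈ N.A :=
  hN.opA _ _ ((hs.cons ha).cons hx) (by simp)

include hN in
theorem mul_mem {a x : H} (ha : a ∈ N.A) (hx : x ∈ N.A) : a * x ∈ N.A := by
  rw [← hN.L_deg0]
  exact hN.L_mem ha 0 in_zero hx

include hN in
theorem pow_mem {a : H} (ha : a ∈ N.A) (k : ℕ) : a ^ k ∈ N.A := by
  induction k with
  | zero => simpa using hN.wt_one
  | succ k ih => rw [pow_succ]; exact hN.mul_mem ih ha

end Ax

end Sy

end Crest.Agent.X262.Qn
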