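import Crest.Agent.X262.Vb.Ax0
import Crest.Agent.X262.Wv65.Main
import Crest.Agent.X262.Wd54.Spl
import Crest.Agent.X262.Am12.Main
import Crest.Agent.X262.Prod33.Main
import Crest.Agent.X262.Sym65.Two
import Crest.Agent.X262.Ord20.Main
import Crest.Agent.X262.Pbd43.Main
import Crest.Agent.X262.Cl49.Main
import Crest.Agent.X262.Cnt37.Main
import Crest.Agent.X262.Cht28.Main
import Crest.Agent.X262.Vb37.Nrm
import Crest.Agent.X262.Tree87.Rank

/-!
# Row 262, road B (helper55): assembly of `Vb.WdvvStmt` from the open leaves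
-/

set_option autoImplicit false

noncomputable section

namespace Crest.Agent.X262.Qn.Rt

theorem am2 : Wd54.Am2Stmt := by
  intro K₁ K₂ K L₁ L₂ _ _ _ _ _ _ _ _ _ _ _ a₁ a₂ h θ₁ θ₂ h₁ h₂
  have := Wd.essFT_of_hom a₁
  have := Wd.essFT_of_hom a₂
  exact Am12.exists_amal2 h θ₁ θ₂ h₁ h₂

/-- a statement for all ambient spaces -/
abbrev All (P : ∀ {J : Type} [Fintype J] [DecidableEq J] (io : J → Type) [∀ j, Fintype (io j)]
    [∀ j, DecidableEq (io j)], Prop) : Prop :=
  ∀ {J : Type} [Fintype J] [DecidableEq J] (io : J → Type) [∀ j, Fintype (io j)]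
    [∀ j, DecidableEq (io j)], P io

theorem split_open (hN : Wd54.NodeStmt) : Wd54.SplitStmt :=
  Wd54.split_of Vb.ax0Stmt Vb37.exNrm hN (Prod33.prodStmt_of Sym65.twoStmt) Ord20.ordStmt
    Pbd43.pbdStmt Cl49.class2Stmt Cht28.chartStmt Cnt37.notOnStmt am2

theorem wdvv_open (hN : Wd54.NodeStmt) (hD : All fun io => Wv65.DropU io)
    (hG : All fun io => Wv65.GenU io) (hO : All fun io => Drop30.OrdStmt io) : Vb.WdvvStmt :=
  Wv65.wdvv_of (split_open hN) hD hG hO Vb37.exNrm Tree87.rankStmt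

end Crest.Agent.X262.Qn.Rt
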